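import Mathlib

/-!
# P249, part 4: importance sampling by a potential function
-/

namespace Vale.Agent.P249

open MeasureTheory Finset

variable {Ω : Type*} [MeasurableSpace Ω] {μ : Measure Ω} {P : Type*}

theorem exists_good_point (s : Finset P) (G : P → Ω → ℝ) (h : Ω → ℝ)
    (hGint : ∀ e ∈ s, Integrable (G e) μ) (hG1 : ∀ e ∈ s, ∫ ω, G e ω ∂μ = 1)
    (hhint : Integrable h μ) (hh1 : ∫ ω, h ω ∂μ = 1) (hh0 : ∀ ω, 0 ≤ h ω)
    (hGh : ∀ e ∈ s, ∀ ω, h ω = 0 → G e ω = 0) (c : P → ℝ) :
    ∃ ω, 0 < h ω ∧ ∑ e ∈ s, c e * G e ω ≤ (∑ e ∈ s, c e) * h ω := by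
  by_contra hcon
  push Not at hcon
  set F : Ω → ℝ := fun ω => ∑ e ∈ s, c e * G e ω - (∑ e ∈ s, c e) * h ω with hF
  have hFnn : 0 ≤ F := by
    intro ω
    rcases (hh0 ω).lt_or_eq with hpos | hzero
    · have := hcon ω hpos
      simp only [hF, Pi.zero_apply]
      linarith
    · have hz : ∑ e ∈ s, c e * G e ω = 0 := by
        apply Finset.sum_eq_zero
        intro e he
        rw [hGh e he ω hzero.symm, mul_zero]
      simp only [hF, Pi.zero_apply]
      rw [hz, ← hzero]
      simp
  have hint1 : Integrable (fun ω => ∑ e ∈ s, c e * G e ω) μ := by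
    apply integrable_finsetSum
    intro e he
    exact (hGint e he).const_mul (c e)
  have hint2 : Integrable (fun ω => (∑ e ∈ s, c e) * h ω) μ := hhint.const_mul _
  have hFint : Integrable F μ := hint1.sub hint2
  have hF0 : ∫ ω, F ω ∂μ = 0 := by
    simp only [hF]
    rw [integral_sub hint1 hint2, integral_const_mul, hh1,
      integral_finsetSum s (fun e he => (hGint e he).const_mul (c e))]
    have : ∑ e ∈ s, ∫ ω, c e * G e ω ∂μ = ∑ e ∈ s, c e := by
      apply Finset.sum_congr rfl
      intro e he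
      rw [integral_const_mul, hG1 e he, mul_one]
    rw [this]
    ring
  have hFae : F =ᵐ[μ] 0 := (integral_eq_zero_iff_of_nonneg hFnn hFint).1 hF0
  have hhae : h =ᵐ[μ] 0 := by
    filter_upwards [hFae] with ω hω
    rcases (hh0 ω).lt_or_eq with hpos | hzero
    · exfalso
      have := hcon ω hpos
      simp only [hF, Pi.zero_apply] at hω
      linarith
    · simp [← hzero]
  have : ∫ ω, h ω ∂μ = 0 := by
    rw [integral_congr_ae hhae]
    simp
  rw [hh1] at this
  exact one_ne_zero this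

theorem exp_upper (θ K Y : ℝ) (hθ : 0 < θ) (hθK : θ * K ≤ 1) (hY0 : 0 ≤ Y) (hYK : Y ≤ K) :
    Real.exp (θ * Y) ≤ 1 + (θ + θ ^ 2 * K) * Y := by
  have h1 : |θ * Y| ≤ 1 := by
    rw [abs_of_nonneg (by positivity)]
    calc θ * Y ≤ θ * K := by apply mul_le_mul_of_nonneg_left hYK hθ.le
      _ ≤ 1 := hθK
  have h2 := Real.abs_exp_sub_one_sub_id_le h1
  have h3 := (abs_le.1 h2).2
  have h4 : (θ * Y) ^ 2 ≤ θ ^ 2 * K * Y := by
    have : Y * Y ≤ K * Y := mul_le_mul_of_nonneg_right hYK hY0
    calc (θ * Y) ^ 2 = θ ^ 2 * (Y * Y) := by ring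
      _ ≤ θ ^ 2 * (K * Y) := by apply mul_le_mul_of_nonneg_left this (by positivity)
      _ = θ ^ 2 * K * Y := by ring
  nlinarith

theorem exp_lower (θ K Y : ℝ) (hθ : 0 < θ) (hθK : θ * K ≤ 1) (hY0 : 0 ≤ Y) (hYK : Y ≤ K) :
    Real.exp (-(θ * Y)) ≤ 1 - (θ - θ ^ 2 * K) * Y := by
  have h1 : |-(θ * Y)| ≤ 1 := by
    rw [abs_neg, abs_of_nonneg (by positivity)]
    calc θ * Y ≤ θ * K := by apply mul_le_mul_of_nonneg_left hYK hθ.le
      _ ≤ 1 := hθK
  have h2 := Real.abs_exp_sub_one_sub_id_le h1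
  have h3 := (abs_le.1 h2).2
  have h4 : (θ * Y) ^ 2 ≤ θ ^ 2 * K * Y := by
    have : Y * Y ≤ K * Y := mul_le_mul_of_nonneg_right hYK hY0
    calc (θ * Y) ^ 2 = θ ^ 2 * (Y * Y) := by ring
      _ ≤ θ ^ 2 * (K * Y) := by apply mul_le_mul_of_nonneg_left this (by positivity)
      _ = θ ^ 2 * K * Y := by ring
  nlinarith

theorem exists_sample (s : Finset P) (G : P → Ω → ℝ) (h : Ω → ℝ)
    (hGint : ∀ e ∈ s, Integrable (G e) μ) (hG1 : ∀ e ∈ s, ∫ ω, G e ω ∂μ = 1)
    (hhint : Integrable h μ) (hh1 : ∫ ω, h ω ∂μ = 1) (hh0 : ∀ ω, 0 ≤ h ω)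
    (K : ℝ) (hG0 : ∀ e ∈ s, ∀ ω, 0 ≤ G e ω) (hGK : ∀ e ∈ s, ∀ ω, G e ω ≤ K * h ω)
    (θ : ℝ) (hθ : 0 < θ) (hθK : θ * K ≤ 1) (k : ℕ) :
    ∃ ω : Fin k → Ω, (∀ t, 0 < h (ω t)) ∧
      ∑ e ∈ s, (Real.exp (θ * (∑ t, G e (ω t) / h (ω t)) - k * (θ + θ ^ 2 * K))
        + Real.exp (-(θ * (∑ t, G e (ω t) / h (ω t))) + k * (θ - θ ^ 2 * K)))
        ≤ 2 * (s.card : ℝ) := by
  have hGh : ∀ e ∈ s, ∀ ω, h ω = 0 → G e ω = 0 := by
    intro e he ω hω
    have h1 := hGK e he ω
    rw [hω, mul_zero] at h1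
    exact le_antisymm h1 (hG0 e he ω)
  induction k with
  | zero =>
    refine ⟨Fin.elim0, fun t => Fin.elim0 t, ?_⟩
    simp
    ring_nf
    exact le_rfl
  | succ k ih =>
    obtain ⟨ω, hω, hΦ⟩ := ih
    set A := θ + θ ^ 2 * K with hA
    set B := θ - θ ^ 2 * K with hB
    set Se : P → ℝ := fun e => ∑ t, G e (ω t) / h (ω t) with hSe
    set α : P → ℝ := fun e => Real.exp (θ * Se e - ((k : ℝ) + 1) * A) with hα
    set β : P → ℝ := fun e => Real.exp (-(θ * Se e) + ((k : ℝ) + 1) * B) with hβ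
    obtain ⟨ω', hω', hc⟩ := exists_good_point s G h hGint hG1 hhint hh1 hh0 hGh
      (fun e => α e * A - β e * B)
    refine ⟨Fin.cons ω' ω, ?_, ?_⟩
    · intro t
      refine Fin.cases ?_ (fun t' => ?_) t
      · simpa using hω'
      · simpa using hω t'
    · have hY : ∑ e ∈ s, (α e * A - β e * B) * (G e ω' / h ω') ≤ ∑ e ∈ s, (α e * A - β e * B) := by
        have h1 : ∑ e ∈ s, (α e * A - β e * B) * (G e ω' / h ω')
            = (∑ e ∈ s, (α e * A - β e * B) * G e ω') / h ω' := by
          rw [Finset.sum_div]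
          apply Finset.sum_congr rfl
          intro e _
          ring
        rw [h1, div_le_iff₀ hω']
        exact hc
      have hterm : ∀ e ∈ s,
          Real.exp (θ * (∑ t, G e ((Fin.cons ω' ω : Fin (k + 1) → Ω) t)
              / h ((Fin.cons ω' ω : Fin (k + 1) → Ω) t)) - ((k + 1 : ℕ) : ℝ) * A)
            + Real.exp (-(θ * (∑ t, G e ((Fin.cons ω' ω : Fin (k + 1) → Ω) t)
              / h ((Fin.cons ω' ω : Fin (k + 1) → Ω) t))) + ((k + 1 : ℕ) : ℝ) * B)
          ≤ (α e + β e) + (α e * A - β e * B) * (G e ω' / h ω') := by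
        intro e he
        have hsum : ∑ t, G e ((Fin.cons ω' ω : Fin (k + 1) → Ω) t)
              / h ((Fin.cons ω' ω : Fin (k + 1) → Ω) t) = G e ω' / h ω' + Se e := by
          rw [Fin.sum_univ_succ]
          simp [hSe]
        rw [hsum]
        set Y := G e ω' / h ω' with hYdef
        have hY0 : 0 ≤ Y := div_nonneg (hG0 e he ω') hω'.le
        have hYK : Y ≤ K := by
          rw [hYdef, div_le_iff₀ hω']
          exact hGK e he ω'
        have e1 : Real.exp (θ * (Y + Se e) - ((k + 1 : ℕ) : ℝ) * A) = α e * Real.exp (θ * Y) := by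
          rw [hα]
          simp only
          rw [← Real.exp_add]
          congr 1
          push_cast
          ring
        have e2 : Real.exp (-(θ * (Y + Se e)) + ((k + 1 : ℕ) : ℝ) * B)
            = β e * Real.exp (-(θ * Y)) := by
          rw [hβ]
          simp only
          rw [← Real.exp_add]
          congr 1
          push_cast
          ring
        rw [e1, e2]
        have u1 := exp_upper θ K Y hθ hθK hY0 hYK
        have u2 := exp_lower θ K Y hθ hθK hY0 hYK
        have a0 : 0 ≤ α e := (Real.exp_pos _).le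
        have b0 : 0 ≤ β e := (Real.exp_pos _).le
        have v1 := mul_le_mul_of_nonneg_left u1 a0
        have v2 := mul_le_mul_of_nonneg_left u2 b0
        rw [← hA] at v1
        rw [← hB] at v2
        calc α e * Real.exp (θ * Y) + β e * Real.exp (-(θ * Y))
            ≤ α e * (1 + A * Y) + β e * (1 - B * Y) := add_le_add v1 v2
          _ = (α e + β e) + (α e * A - β e * B) * Y := by ring
      calc _ ≤ ∑ e ∈ s, ((α e + β e) + (α e * A - β e * B) * (G e ω' / h ω')) :=
            Finset.sum_le_sum hterm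
        _ = ∑ e ∈ s, (α e + β e) + ∑ e ∈ s, (α e * A - β e * B) * (G e ω' / h ω') :=
            Finset.sum_add_distrib
        _ ≤ ∑ e ∈ s, (α e + β e) + ∑ e ∈ s, (α e * A - β e * B) := by linarith
        _ = ∑ e ∈ s, (α e * (1 + A) + β e * (1 - B)) := by
            rw [← Finset.sum_add_distrib]
            apply Finset.sum_congr rfl
            intro e _
            ring
        _ ≤ ∑ e ∈ s, (Real.exp (θ * Se e - k * A) + Real.exp (-(θ * Se e) + k * B)) := by
            apply Finset.sum_le_sum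
            intro e _
            have a0 : 0 ≤ α e := (Real.exp_pos _).le
            have b0 : 0 ≤ β e := (Real.exp_pos _).le
            have w1 : 1 + A ≤ Real.exp A := by
              have := Real.add_one_le_exp A
              linarith
            have w2 : 1 - B ≤ Real.exp (-B) := by
              have := Real.add_one_le_exp (-B)
              linarith
            have e1 : Real.exp (θ * Se e - k * A) = α e * Real.exp A := by
              rw [hα]
              simp only
              rw [← Real.exp_add]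
              congr 1
              ring
            have e2 : Real.exp (-(θ * Se e) + k * B) = β e * Real.exp (-B) := by
              rw [hβ]
              simp only
              rw [← Real.exp_add]
              congr 1
              ring
            rw [e1, e2]
            exact add_le_add (mul_le_mul_of_nonneg_left w1 a0) (mul_le_mul_of_nonneg_left w2 b0)
        _ ≤ 2 * (s.card : ℝ) := hΦ

end Vale.Agent.P249
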