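import Mathlib
import Vale.Agent.P249.Sampling

/-!
# P249, part 5: two-sided bounds from the potential
-/

namespace Vale.Agent.P249

open MeasureTheory Finset

variable {Ω : Type*} [MeasurableSpace Ω] {μ : Measure Ω} {P : Type*}

theorem sample_bounds (s : Finset P) (G : P → Ω → ℝ) (h : Ω → ℝ)
    (hGint : ∀ e ∈ s, Integrable (G e) μ) (hG1 : ∀ e ∈ s, ∫ ω, G e ω ∂μ = 1)
    (hhint : Integrable h μ) (hh1 : ∫ ω, h ω ∂μ = 1) (hh0 : ∀ ω, 0 ≤ h ω)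
    (K : ℝ) (hK : 0 < K) (hG0 : ∀ e ∈ s, ∀ ω, 0 ≤ G e ω) (hGK : ∀ e ∈ s, ∀ ω, G e ω ≤ K * h ω)
    (δ : ℝ) (hδ : 0 < δ) (hδ1 : δ ≤ 1) (k : ℕ)
    (hk : 4 * K * Real.log (2 * (s.card : ℝ)) / δ ^ 2 ≤ (k : ℝ)) :
    ∃ ω : Fin k → Ω, (∀ t, 0 < h (ω t)) ∧
      ∀ e ∈ s, (1 - δ) * (k : ℝ) ≤ ∑ t, G e (ω t) / h (ω t) ∧
        ∑ t, G e (ω t) / h (ω t) ≤ (1 + δ) * (k : ℝ) := by
  set θ := δ / (2 * K) with hθdef
  have hθ : 0 < θ := by positivity
  have hθK' : θ * K = δ / 2 := by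
    rw [hθdef]
    field_simp
  have hθK : θ * K ≤ 1 := by
    rw [hθK']
    linarith
  obtain ⟨ω, hω, hΦ⟩ := exists_sample s G h hGint hG1 hhint hh1 hh0 K hG0 hGK θ hθ hθK k
  refine ⟨ω, hω, ?_⟩
  intro e he
  set S := ∑ t, G e (ω t) / h (ω t) with hS
  set L := Real.log (2 * (s.card : ℝ)) with hL
  have hcard : 0 < (s.card : ℝ) := by
    exact_mod_cast Finset.card_pos.2 ⟨e, he⟩
  have hterm : Real.exp (θ * S - k * (θ + θ ^ 2 * K)) + Real.exp (-(θ * S) + k * (θ - θ ^ 2 * K))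
      ≤ 2 * (s.card : ℝ) := by
    refine le_trans ?_ hΦ
    exact Finset.single_le_sum
      (f := fun e => Real.exp (θ * (∑ t, G e (ω t) / h (ω t)) - k * (θ + θ ^ 2 * K))
        + Real.exp (-(θ * (∑ t, G e (ω t) / h (ω t))) + k * (θ - θ ^ 2 * K)))
      (fun e' _ => add_nonneg (Real.exp_pos _).le (Real.exp_pos _).le) he
  have h1 : θ * S - k * (θ + θ ^ 2 * K) ≤ L := by
    rw [hL, Real.le_log_iff_exp_le (by positivity)]
    have := Real.exp_pos (-(θ * S) + k * (θ - θ ^ 2 * K))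
    linarith
  have h2 : -(θ * S) + k * (θ - θ ^ 2 * K) ≤ L := by
    rw [hL, Real.le_log_iff_exp_le (by positivity)]
    have := Real.exp_pos (θ * S - k * (θ + θ ^ 2 * K))
    linarith
  -- `L ≤ θ * k * δ / 2`
  have h3 : L ≤ θ * ((k : ℝ) * (δ / 2)) := by
    have h4 : 4 * K * L ≤ (k : ℝ) * δ ^ 2 := by
      rwa [div_le_iff₀ (by positivity)] at hk
    have h5 : θ * ((k : ℝ) * (δ / 2)) = ((k : ℝ) * δ ^ 2) / (4 * K) := by
      rw [hθdef]
      field_simp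
      ring
    rw [h5, le_div_iff₀ (by positivity)]
    linarith
  have h6 : θ ^ 2 * K = θ * (δ / 2) := by
    rw [← hθK']
    ring
  rw [h6] at h1 h2
  constructor
  · have : θ * ((1 - δ) * (k : ℝ)) ≤ θ * S := by nlinarith
    exact le_of_mul_le_mul_left this hθ
  · have : θ * S ≤ θ * ((1 + δ) * (k : ℝ)) := by nlinarith
    exact le_of_mul_le_mul_left this hθ

end Vale.Agent.P249
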