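import Mathlib

/-!
# P249, part 1: the harmonic bound for rank weights
-/

namespace Vale.Agent.P249

open Finset

/-- For a real function `g` on a finite set `S`, the sum over `v ∈ S` of the reciprocal of the
number of `l ∈ S` with `g l ≤ g v` is at most the harmonic number of `S.card`. -/
theorem sum_inv_rank_le {ι : Type*} [DecidableEq ι] (g : ι → ℝ) (S : Finset ι) :
    ∑ v ∈ S, (1 : ℝ) / ((S.filter (fun l => g l ≤ g v)).card : ℝ)
      ≤ ∑ r ∈ Finset.range S.card, (1 : ℝ) / ((r : ℝ) + 1) := by
  induction S using Finset.induction_on_max_value g with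
  | empty => simp
  | insert a s ha hmax ih =>
    rw [Finset.sum_insert ha, Finset.card_insert_of_notMem ha, Finset.sum_range_succ, add_comm]
    have h1 : ((insert a s).filter (fun l => g l ≤ g a)) = insert a s := by
      apply Finset.filter_true_of_mem
      intro x hx
      rcases Finset.mem_insert.1 hx with rfl | hx
      · exact le_rfl
      · exact hmax x hx
    have h2 : (1 : ℝ) / (((insert a s).filter (fun l => g l ≤ g a)).card : ℝ)
        = 1 / ((s.card : ℝ) + 1) := by
      rw [h1, Finset.card_insert_of_notMem ha]
      push_cast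
      rfl
    rw [h2]
    have h3 : ∑ v ∈ s, (1 : ℝ) / (((insert a s).filter (fun l => g l ≤ g v)).card : ℝ)
        ≤ ∑ v ∈ s, (1 : ℝ) / ((s.filter (fun l => g l ≤ g v)).card : ℝ) := by
      apply Finset.sum_le_sum
      intro v hv
      have hpos : 0 < (s.filter (fun l => g l ≤ g v)).card := by
        apply Finset.card_pos.2
        exact ⟨v, Finset.mem_filter.2 ⟨hv, le_rfl⟩⟩
      have hle : (s.filter (fun l => g l ≤ g v)).card
          ≤ ((insert a s).filter (fun l => g l ≤ g v)).card := by
        apply Finset.card_le_card
        apply Finset.filter_subset_filter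
        exact Finset.subset_insert a s
      apply one_div_le_one_div_of_le
      · exact_mod_cast hpos
      · exact_mod_cast hle
    linarith

/-- The harmonic sum is at most `1 + log n`. -/
theorem sum_range_inv_le (n : ℕ) :
    ∑ r ∈ Finset.range n, (1 : ℝ) / ((r : ℝ) + 1) ≤ 1 + Real.log n := by
  have h := harmonic_le_one_add_log n
  have h2 : ((harmonic n : ℚ) : ℝ) = ∑ r ∈ Finset.range n, (1 : ℝ) / ((r : ℝ) + 1) := by
    unfold harmonic
    push_cast
    apply Finset.sum_congr rfl
    intro r _
    rw [one_div]
  rw [← h2]
  exact h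

end Vale.Agent.P249
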