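import Mathlib
import Vale.Agent.P249.Harmonic

/-!
# P249, part 2: the key inequality for rank weights on a finite metric space
-/

namespace Vale.Agent.P249

open Finset

variable {ι : Type*} [Fintype ι]

/-- closed ball of a finite (pseudo)metric, as a finset -/
noncomputable def ball (D : ι → ι → ℝ) (u : ι) (r : ℝ) : Finset ι :=
  univ.filter (fun l => D u l ≤ r)

/-- rank weight: reciprocal of the number of points at least as close to `u` as `v` -/
noncomputable def lam (D : ι → ι → ℝ) (u v : ι) : ℝ := 1 / ((ball D u (D u v)).card : ℝ)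

theorem mem_ball {D : ι → ι → ℝ} {u l : ι} {r : ℝ} : l ∈ ball D u r ↔ D u l ≤ r := by
  simp [ball]

theorem lam_nonneg (D : ι → ι → ℝ) (u v : ι) : 0 ≤ lam D u v := by
  unfold lam
  positivity

theorem exists_small_growth (e : ℕ → ℕ) (T n : ℕ) (h0 : 2 ≤ e 0) (hT : e T ≤ n)
    (hn : n ≤ 2 ^ T) : ∃ m, m < T ∧ e (m + 1) ≤ 2 * e m := by
  by_contra h
  push Not at h
  have key : ∀ m, m ≤ T → 2 ^ (m + 1) ≤ e m := by
    intro m
    induction m with
    | zero => intro _; simpa using h0
    | succ k ih =>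
      intro hk
      have h1 := ih (by omega)
      have h2 := h k (by omega)
      calc 2 ^ (k + 1 + 1) = 2 * 2 ^ (k + 1) := by ring
        _ ≤ 2 * e k := by omega
        _ ≤ e (k + 1) := le_of_lt h2
  have h3 := key T le_rfl
  have h4 : 2 ^ (T + 1) = 2 * 2 ^ T := by ring
  have h5 : 0 < 2 ^ T := by positivity
  omega

theorem D_nonneg (D : ι → ι → ℝ) (hD0 : ∀ u, D u u = 0)
    (hpos : ∀ u v, u ≠ v → 0 < D u v) (u v : ι) : 0 ≤ D u v := by
  by_cases h : u = v
  · subst h
    rw [hD0]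
  · exact (hpos u v h).le

theorem g_nonneg (D : ι → ι → ℝ) (hD0 : ∀ u, D u u = 0)
    (hpos : ∀ u v, u ≠ v → 0 < D u v) (p : ℝ) (a : ι → ℝ) (u v : ι) :
    0 ≤ |a u - a v| ^ p / (D u v) ^ p :=
  div_nonneg (Real.rpow_nonneg (abs_nonneg _) _) (Real.rpow_nonneg (D_nonneg D hD0 hpos u v) _)

theorem helper (D : ι → ι → ℝ) (hD0 : ∀ u, D u u = 0)
    (hpos : ∀ u v, u ≠ v → 0 < D u v) (p : ℝ) (hp : 0 < p) (a : ι → ℝ)
    (z l : ι) (ρ s : ℝ) (B : Finset ι) (hs : 0 ≤ s) (hsl : s / 2 ≤ |a z - a l|)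
    (hρ : 0 < ρ) (hl : D z l ≤ ρ) (hB : ball D z (D z l) ⊆ B) :
    s ^ p / (2 * ρ) ^ p / (B.card : ℝ) ≤ lam D z l * (|a z - a l| ^ p / (D z l) ^ p) := by
  by_cases hzl : l = z
  · subst hzl
    have : s = 0 := by
      simp at hsl
      linarith
    subst this
    rw [Real.zero_rpow hp.ne', zero_div, zero_div]
    exact mul_nonneg (lam_nonneg D l l) (g_nonneg D hD0 hpos p a l l)
  · have hd : 0 < D z l := hpos z l (fun h => hzl h.symm)
    have hz : z ∈ ball D z (D z l) := by
      rw [mem_ball, hD0]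
      exact hd.le
    have hc1 : 0 < (ball D z (D z l)).card := Finset.card_pos.2 ⟨z, hz⟩
    have hc2 : (ball D z (D z l)).card ≤ B.card := Finset.card_le_card hB
    have hlam : 1 / (B.card : ℝ) ≤ lam D z l := by
      unfold lam
      apply one_div_le_one_div_of_le
      · exact_mod_cast hc1
      · exact_mod_cast hc2
    have hg : s ^ p / (2 * ρ) ^ p ≤ |a z - a l| ^ p / (D z l) ^ p := by
      rw [← Real.div_rpow hs (by positivity), ← Real.div_rpow (abs_nonneg _) hd.le]
      apply Real.rpow_le_rpow (by positivity) _ hp.le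
      have : s / (2 * ρ) = (s / 2) / ρ := by field_simp
      rw [this]
      apply div_le_div₀ (abs_nonneg _) hsl hd hl
    calc s ^ p / (2 * ρ) ^ p / (B.card : ℝ) = (1 / (B.card : ℝ)) * (s ^ p / (2 * ρ) ^ p) := by ring
      _ ≤ lam D z l * (|a z - a l| ^ p / (D z l) ^ p) := by
        apply mul_le_mul hlam hg (by positivity) (lam_nonneg D z l)

theorem step (D : ι → ι → ℝ) (hD0 : ∀ u, D u u = 0) (hsymm : ∀ u v, D u v = D v u)
    (htri : ∀ u v w, D u w ≤ D u v + D v w)
    (hpos : ∀ u v, u ≠ v → 0 < D u v) (p : ℝ) (hp : 0 < p) (a : ι → ℝ)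
    (c c' : ι) (hcc : c ≠ c') (R : ℝ) (hR : 0 < R) (l : ι) (hl : l ∈ ball D c R) :
    |a c - a c'| ^ p / (2 * (R + D c c')) ^ p / ((ball D c' (R + D c c')).card : ℝ)
      ≤ lam D c l * (|a c - a l| ^ p / (D c l) ^ p)
        + lam D c' l * (|a c' - a l| ^ p / (D c' l) ^ p) := by
  have hd : 0 < D c c' := hpos c c' hcc
  rw [mem_ball] at hl
  have hn1 : 0 ≤ lam D c l * (|a c - a l| ^ p / (D c l) ^ p) :=
    mul_nonneg (lam_nonneg D c l) (g_nonneg D hD0 hpos p a c l)
  have hn2 : 0 ≤ lam D c' l * (|a c' - a l| ^ p / (D c' l) ^ p) :=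
    mul_nonneg (lam_nonneg D c' l) (g_nonneg D hD0 hpos p a c' l)
  have hsplit : |a c - a c'| ≤ |a c - a l| + |a c' - a l| := by
    have h1 : a c - a c' = (a c - a l) - (a c' - a l) := by ring
    rw [h1]
    exact abs_sub _ _
  rcases le_total (|a c - a c'| / 2) (|a c - a l|) with h | h
  · have hB : ball D c (D c l) ⊆ ball D c' (R + D c c') := by
      intro x hx
      rw [mem_ball] at hx ⊢
      have := htri c' c x
      rw [hsymm c' c] at this
      linarith
    have := helper D hD0 hpos p hp a c l (R + D c c') (|a c - a c'|) _ (abs_nonneg _) h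
      (by linarith) (by linarith) hB
    linarith
  · have h' : |a c - a c'| / 2 ≤ |a c' - a l| := by linarith
    have hl' : D c' l ≤ R + D c c' := by
      have := htri c' c l
      rw [hsymm c' c] at this
      linarith
    have hB : ball D c' (D c' l) ⊆ ball D c' (R + D c c') := by
      intro x hx
      rw [mem_ball] at hx ⊢
      linarith
    have := helper D hD0 hpos p hp a c' l (R + D c c') (|a c - a c'|) _ (abs_nonneg _) h'
      (by linarith) hl' hB
    linarith

end Vale.Agent.P249
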