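import Mathlib
import Vale.Agent.P249.Metric

/-!
# P249, part 3: the key inequality
-/

namespace Vale.Agent.P249

open Finset

variable {ι : Type*} [Fintype ι]

theorem arith (A d p : ℝ) (m T : ℕ) (e1 e0 S : ℝ) (hA : 0 ≤ A) (hd : 0 < d) (hp : 0 < p)
    (hmT : m < T) (he1 : 0 < e1) (he : e1 ≤ 2 * e0)
    (hS : e0 * (A / (2 * (((m : ℝ) + 1) * d + d)) ^ p / e1) ≤ S) :
    A / d ^ p ≤ 2 * (2 * ((T : ℝ) + 1)) ^ p * S := by
  have hfac : (2 * (((m : ℝ) + 1) * d + d)) ^ p = (2 * ((m : ℝ) + 2)) ^ p * d ^ p := by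
    rw [← Real.mul_rpow (by positivity) hd.le]
    congr 1
    ring
  have hdp : 0 < d ^ p := Real.rpow_pos_of_pos hd p
  have hmp : 0 < (2 * ((m : ℝ) + 2)) ^ p := Real.rpow_pos_of_pos (by positivity) p
  have hTp : 0 < (2 * ((T : ℝ) + 1)) ^ p := Real.rpow_pos_of_pos (by positivity) p
  have hmT' : (2 * ((m : ℝ) + 2)) ^ p ≤ (2 * ((T : ℝ) + 1)) ^ p := by
    apply Real.rpow_le_rpow (by positivity) _ hp.le
    have : (m : ℝ) + 1 ≤ (T : ℝ) := by exact_mod_cast hmT
    linarith
  rw [hfac] at hS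
  set X := (2 * ((m : ℝ) + 2)) ^ p with hX
  set Y := (2 * ((T : ℝ) + 1)) ^ p with hY
  set Z := d ^ p with hZ
  have hW : 0 ≤ A / (X * Z) / e1 := by positivity
  have hWeq : A / Z = (A / (X * Z) / e1) * (X * e1) := by
    field_simp
  rw [hWeq]
  calc (A / (X * Z) / e1) * (X * e1) ≤ (A / (X * Z) / e1) * (Y * (2 * e0)) := by
        apply mul_le_mul_of_nonneg_left _ hW
        exact mul_le_mul hmT' he he1.le hTp.le
    _ = 2 * Y * (e0 * (A / (X * Z) / e1)) := by ring
    _ ≤ 2 * Y * S := by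
        apply mul_le_mul_of_nonneg_left hS
        positivity

theorem key_ineq [DecidableEq ι] (D : ι → ι → ℝ) (hD0 : ∀ u, D u u = 0)
    (hsymm : ∀ u v, D u v = D v u)
    (htri : ∀ u v w, D u w ≤ D u v + D v w)
    (hpos : ∀ u v, u ≠ v → 0 < D u v) (p : ℝ) (hp : 0 < p) (a : ι → ℝ)
    (T : ℕ) (hT : Fintype.card ι ≤ 2 ^ T) (i j : ι) (hij : i ≠ j) :
    |a i - a j| ^ p / (D i j) ^ p
      ≤ 2 * (2 * ((T : ℝ) + 1)) ^ p
        * ∑ u, ∑ v, lam D u v * (|a u - a v| ^ p / (D u v) ^ p) := by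
  have hd : 0 < D i j := hpos i j hij
  let c : ℕ → ι := fun m => if Even m then i else j
  have hc : ∀ m, (c m = i ∧ c (m + 1) = j) ∨ (c m = j ∧ c (m + 1) = i) := by
    intro m
    by_cases h : Even m
    · left
      simp [c, h, Nat.even_add_one]
    · right
      simp [c, h, Nat.even_add_one]
  have hcne : ∀ m, c m ≠ c (m + 1) := by
    intro m
    rcases hc m with ⟨h1, h2⟩ | ⟨h1, h2⟩
    · rw [h1, h2]; exact hij
    · rw [h1, h2]; exact hij.symm
  have hcd : ∀ m, D (c m) (c (m + 1)) = D i j := by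
    intro m
    rcases hc m with ⟨h1, h2⟩ | ⟨h1, h2⟩
    · rw [h1, h2]
    · rw [h1, h2]; exact hsymm j i
  have hca : ∀ m, |a (c m) - a (c (m + 1))| = |a i - a j| := by
    intro m
    rcases hc m with ⟨h1, h2⟩ | ⟨h1, h2⟩
    · rw [h1, h2]
    · rw [h1, h2]; exact abs_sub_comm _ _
  let E : ℕ → Finset ι := fun m => ball D (c m) (((m : ℝ) + 1) * D i j)
  have h0 : 2 ≤ (E 0).card := by
    have hsub : ({i, j} : Finset ι) ⊆ E 0 := by
      intro x hx
      simp only [Finset.mem_insert, Finset.mem_singleton] at hx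
      have hc0 : c 0 = i := by simp [c]
      simp only [E, mem_ball, hc0]
      rcases hx with rfl | rfl
      · rw [hD0]; simp; exact hd.le
      · simp
    calc 2 = ({i, j} : Finset ι).card := (Finset.card_pair hij).symm
      _ ≤ (E 0).card := Finset.card_le_card hsub
  have hTn : (E T).card ≤ Fintype.card ι := Finset.card_le_univ _
  obtain ⟨m, hmT, hm⟩ := exists_small_growth (fun m => (E m).card) T _ h0 hTn hT
  set S := ∑ u, ∑ v, lam D u v * (|a u - a v| ^ p / (D u v) ^ p) with hS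
  set f : ι → ι → ℝ := fun u v => lam D u v * (|a u - a v| ^ p / (D u v) ^ p) with hf
  have hfnn : ∀ u v, 0 ≤ f u v := fun u v =>
    mul_nonneg (lam_nonneg D u v) (g_nonneg D hD0 hpos p a u v)
  have hR : 0 < ((m : ℝ) + 1) * D i j := by positivity
  have hEm1 : E (m + 1) = ball D (c (m + 1)) (((m : ℝ) + 1) * D i j + D (c m) (c (m + 1))) := by
    simp only [E]
    rw [hcd m]
    congr 1
    push_cast
    ring
  set W' := |a i - a j| ^ p / (2 * (((m : ℝ) + 1) * D i j + D i j)) ^ p / ((E (m + 1)).card : ℝ)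
    with hW'
  have hstep : ∀ l ∈ E m, W' ≤ f (c m) l + f (c (m + 1)) l := by
    intro l hl
    have := step D hD0 hsymm htri hpos p hp a (c m) (c (m + 1)) (hcne m) _ hR l hl
    rw [← hEm1, hca m, hcd m] at this
    exact this
  have hsum1 : ((E m).card : ℝ) * W' ≤ ∑ l ∈ E m, (f (c m) l + f (c (m + 1)) l) := by
    have := Finset.card_nsmul_le_sum (E m) (fun l => f (c m) l + f (c (m + 1)) l) W' hstep
    rwa [nsmul_eq_mul] at this
  have hsum2 : ∑ l ∈ E m, (f (c m) l + f (c (m + 1)) l) ≤ S := by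
    calc ∑ l ∈ E m, (f (c m) l + f (c (m + 1)) l)
        ≤ ∑ l, (f (c m) l + f (c (m + 1)) l) := by
          apply Finset.sum_le_sum_of_subset_of_nonneg (Finset.subset_univ _)
          intro x _ _
          exact add_nonneg (hfnn _ _) (hfnn _ _)
      _ = ∑ l, f (c m) l + ∑ l, f (c (m + 1)) l := Finset.sum_add_distrib
      _ = ∑ u ∈ ({c m, c (m + 1)} : Finset ι), ∑ l, f u l := (Finset.sum_pair (f := fun u => ∑ l, f u l) (hcne m)).symm
      _ ≤ ∑ u, ∑ l, f u l := by
          apply Finset.sum_le_sum_of_subset_of_nonneg (Finset.subset_univ _)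
          intro x _ _
          exact Finset.sum_nonneg (fun l _ => hfnn x l)
  have hSW : ((E m).card : ℝ) * W' ≤ S := le_trans hsum1 hsum2
  -- arithmetic
  have hEpos : 0 < ((E (m + 1)).card : ℝ) := by
    have : c (m + 1) ∈ E (m + 1) := by
      simp only [E, mem_ball, hD0]
      positivity
    exact_mod_cast Finset.card_pos.2 ⟨_, this⟩
  have hcard : ((E (m + 1)).card : ℝ) ≤ 2 * ((E m).card : ℝ) := by exact_mod_cast hm
  exact arith (|a i - a j| ^ p) (D i j) p m T _ _ S (Real.rpow_nonneg (abs_nonneg _) _) hd hp hmT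
    hEpos hcard hSW

/-- total rank weight from a point is at most `1 + log n`. -/
theorem sum_lam_le [DecidableEq ι] (D : ι → ι → ℝ) (u : ι) :
    ∑ v, lam D u v ≤ 1 + Real.log (Fintype.card ι) := by
  have h := sum_inv_rank_le (fun l => D u l) (Finset.univ : Finset ι)
  have h2 := sum_range_inv_le (Fintype.card ι)
  have h3 : ∑ v, lam D u v
      = ∑ v ∈ (Finset.univ : Finset ι),
        (1 : ℝ) / (((Finset.univ : Finset ι).filter (fun l => D u l ≤ D u v)).card : ℝ) := by
    rfl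
  rw [h3]
  rw [Finset.card_univ] at h
  exact le_trans h h2

end Vale.Agent.P249
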