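import Mathlib
import Vale.Agent.P249.Key
import Vale.Agent.P249.Bounds

/-!
# P249, part 6: the abstract sampling theorem
-/

namespace Vale.Agent.P249

open MeasureTheory Finset

theorem sum_offDiag_eq {ι : Type*} [Fintype ι] [DecidableEq ι] (F : ι → ι → ℝ)
    (hF : ∀ u, F u u = 0) :
    ∑ e ∈ (univ : Finset ι).offDiag, F e.1 e.2 = ∑ u, ∑ v, F u v := by
  rw [← Fintype.sum_prod_type']
  apply Finset.sum_subset (Finset.subset_univ _)
  intro x _ hx
  have : x.1 = x.2 := by
    by_contra hne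
    apply hx
    simp [Finset.mem_offDiag, hne]
  rw [this, hF]

theorem sum_offDiag_le {ι : Type*} [Fintype ι] [DecidableEq ι] (F : ι → ι → ℝ)
    (hF : ∀ u v, 0 ≤ F u v) :
    ∑ e ∈ (univ : Finset ι).offDiag, F e.1 e.2 ≤ ∑ u, ∑ v, F u v := by
  rw [← Fintype.sum_prod_type']
  apply Finset.sum_le_sum_of_subset_of_nonneg (Finset.subset_univ _)
  intro x _ _
  exact hF _ _

theorem core {ι : Type*} [Fintype ι] [DecidableEq ι] {Ω : Type*} [MeasurableSpace Ω]
    (μ : Measure Ω) (a : ι → Ω → ℝ) (D : ι → ι → ℝ) (hD0 : ∀ u, D u u = 0)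
    (hsymm : ∀ u v, D u v = D v u) (htri : ∀ u v w, D u w ≤ D u v + D v w)
    (hpos : ∀ u v, u ≠ v → 0 < D u v) (p : ℝ) (hp : 0 < p)
    (hint : ∀ u v, Integrable (fun ω => |a u ω - a v ω| ^ p) μ)
    (hD : ∀ u v, ∫ ω, |a u ω - a v ω| ^ p ∂μ = (D u v) ^ p)
    (hcard : 2 ≤ Fintype.card ι)
    (T : ℕ) (hT : Fintype.card ι ≤ 2 ^ T) (δ : ℝ) (hδ : 0 < δ) (hδ1 : δ ≤ 1) (k : ℕ)
    (hk : 4 * (2 * (2 * ((T : ℝ) + 1)) ^ p
        * ((Fintype.card ι : ℝ) * (1 + Real.log (Fintype.card ι))))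
        * Real.log (2 * (Fintype.card ι : ℝ) ^ 2) / δ ^ 2 ≤ (k : ℝ)) :
    ∃ (ω : Fin k → Ω) (c : Fin k → ℝ), (∀ t, 0 < c t) ∧ ∀ u v,
      (1 - δ) * (D u v) ^ p ≤ ∑ t, c t * |a u (ω t) - a v (ω t)| ^ p ∧
      ∑ t, c t * |a u (ω t) - a v (ω t)| ^ p ≤ (1 + δ) * (D u v) ^ p := by
  classical
  set n : ℝ := (Fintype.card ι : ℝ) with hn
  have hn2 : (2 : ℝ) ≤ n := by
    rw [hn]
    exact_mod_cast hcard
  have hlogn : 0 < Real.log n := Real.log_pos (by linarith)
  set C : ℝ := 2 * (2 * ((T : ℝ) + 1)) ^ p with hC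
  have hCpos : 0 < C := by
    have : 0 < (2 * ((T : ℝ) + 1)) ^ p := Real.rpow_pos_of_pos (by positivity) p
    positivity
  set K : ℝ := C * (n * (1 + Real.log n)) with hKdef
  have hK : 0 < K := by positivity
  set s : Finset (ι × ι) := (univ : Finset ι).offDiag with hs
  set G : ι × ι → Ω → ℝ := fun e ω => |a e.1 ω - a e.2 ω| ^ p / (D e.1 e.2) ^ p with hG
  set w : ι × ι → ℝ := fun e => lam D e.1 e.2 with hw
  set Λ : ℝ := ∑ e ∈ s, w e with hΛ
  have hne : ∀ e ∈ s, e.1 ≠ e.2 := by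
    intro e he
    simpa [hs, Finset.mem_offDiag] using he
  have hDp : ∀ e ∈ s, 0 < (D e.1 e.2) ^ p := fun e he =>
    Real.rpow_pos_of_pos (hpos _ _ (hne e he)) p
  have hwpos : ∀ e, 0 < w e := by
    intro e
    simp only [hw, lam]
    have : e.1 ∈ ball D e.1 (D e.1 e.2) := by
      rw [mem_ball, hD0]
      exact D_nonneg D hD0 hpos _ _
    have hc : 0 < (ball D e.1 (D e.1 e.2)).card := Finset.card_pos.2 ⟨_, this⟩
    have hc' : (0 : ℝ) < ((ball D e.1 (D e.1 e.2)).card : ℝ) := by exact_mod_cast hc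
    positivity
  have hsne : s.Nonempty := by
    obtain ⟨i, j, hij⟩ := Fintype.exists_pair_of_one_lt_card (by omega : 1 < Fintype.card ι)
    exact ⟨(i, j), by simp [hs, Finset.mem_offDiag, hij]⟩
  have hΛpos : 0 < Λ := Finset.sum_pos (fun e _ => hwpos e) hsne
  have hΛle : Λ ≤ n * (1 + Real.log n) := by
    calc Λ ≤ ∑ u, ∑ v, lam D u v := sum_offDiag_le (fun u v => lam D u v) (lam_nonneg D)
      _ ≤ ∑ _u : ι, (1 + Real.log n) := Finset.sum_le_sum (fun u _ => sum_lam_le D u)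
      _ = n * (1 + Real.log n) := by
        rw [Finset.sum_const, Finset.card_univ, nsmul_eq_mul]
  set h : Ω → ℝ := fun ω => (∑ e ∈ s, w e * G e ω) / Λ with hh
  have hG0 : ∀ e ∈ s, ∀ ω, 0 ≤ G e ω := fun e _ ω =>
    g_nonneg D hD0 hpos p (fun u => a u ω) e.1 e.2
  have hGint : ∀ e ∈ s, Integrable (G e) μ := fun e _ => (hint e.1 e.2).div_const _
  have hG1 : ∀ e ∈ s, ∫ ω, G e ω ∂μ = 1 := by
    intro e he
    simp only [hG]
    rw [integral_div, hD, div_self (hDp e he).ne']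
  have hsumint : Integrable (fun ω => ∑ e ∈ s, w e * G e ω) μ :=
    integrable_finsetSum s (fun e he => (hGint e he).const_mul (w e))
  have hhint : Integrable h μ := hsumint.div_const _
  have hh1 : ∫ ω, h ω ∂μ = 1 := by
    simp only [hh]
    rw [integral_div, integral_finsetSum s (fun e he => (hGint e he).const_mul (w e))]
    have : ∑ e ∈ s, ∫ ω, w e * G e ω ∂μ = Λ := by
      apply Finset.sum_congr rfl
      intro e he
      rw [integral_const_mul, hG1 e he, mul_one]
    rw [this, div_self hΛpos.ne']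
  have hh0 : ∀ ω, 0 ≤ h ω := by
    intro ω
    apply div_nonneg _ hΛpos.le
    exact Finset.sum_nonneg (fun e he => mul_nonneg (hwpos e).le (hG0 e he ω))
  have hGK : ∀ e ∈ s, ∀ ω, G e ω ≤ K * h ω := by
    intro e he ω
    have hkey := key_ineq D hD0 hsymm htri hpos p hp (fun u => a u ω) T hT e.1 e.2 (hne e he)
    have hconv : ∑ u, ∑ v, lam D u v * (|a u ω - a v ω| ^ p / (D u v) ^ p)
        = ∑ e ∈ s, w e * G e ω := by
      rw [← sum_offDiag_eq (fun u v => lam D u v * (|a u ω - a v ω| ^ p / (D u v) ^ p))]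
      intro u
      rw [sub_self, abs_zero, Real.zero_rpow hp.ne', zero_div, mul_zero]
    rw [hconv] at hkey
    have hsum : ∑ e ∈ s, w e * G e ω = Λ * h ω := by
      simp only [hh]
      field_simp
    rw [hsum] at hkey
    calc G e ω ≤ C * (Λ * h ω) := hkey
      _ ≤ C * ((n * (1 + Real.log n)) * h ω) := by
        apply mul_le_mul_of_nonneg_left _ hCpos.le
        exact mul_le_mul_of_nonneg_right hΛle (hh0 ω)
      _ = K * h ω := by rw [hKdef]; ring
  have hscard : (s.card : ℝ) ≤ n ^ 2 := by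
    have h1 : s.card = Fintype.card ι * Fintype.card ι - Fintype.card ι := by
      rw [hs, Finset.offDiag_card, Finset.card_univ]
    have h2 : s.card ≤ Fintype.card ι * Fintype.card ι := by omega
    calc (s.card : ℝ) ≤ ((Fintype.card ι * Fintype.card ι : ℕ) : ℝ) := by exact_mod_cast h2
      _ = n ^ 2 := by rw [hn]; push_cast; ring
  have hscard0 : 0 < (s.card : ℝ) := by exact_mod_cast Finset.card_pos.2 hsne
  have hk' : 4 * K * Real.log (2 * (s.card : ℝ)) / δ ^ 2 ≤ (k : ℝ) := by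
    refine le_trans ?_ hk
    apply div_le_div_of_nonneg_right _ (by positivity)
    apply mul_le_mul_of_nonneg_left _ (by positivity)
    apply Real.log_le_log (by positivity)
    linarith
  have hkpos : 0 < (k : ℝ) := by
    refine lt_of_lt_of_le ?_ hk
    have : 0 < Real.log (2 * n ^ 2) := by
      apply Real.log_pos
      nlinarith
    positivity
  obtain ⟨ω, hω, hb⟩ := sample_bounds s G h hGint hG1 hhint hh1 hh0 K hK hG0 hGK δ hδ hδ1 k hk'
  refine ⟨ω, fun t => 1 / ((k : ℝ) * h (ω t)), ?_, ?_⟩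
  · intro t
    have := hω t
    positivity
  · intro u v
    by_cases huv : u = v
    · subst huv
      simp [hD0, Real.zero_rpow hp.ne']
    · have he : (u, v) ∈ s := by simp [hs, Finset.mem_offDiag, huv]
      obtain ⟨hb1, hb2⟩ := hb (u, v) he
      have hDuv : 0 < (D u v) ^ p := hDp (u, v) he
      have heq : ∑ t, 1 / ((k : ℝ) * h (ω t)) * |a u (ω t) - a v (ω t)| ^ p
          = (D u v) ^ p / (k : ℝ) * ∑ t, G (u, v) (ω t) / h (ω t) := by
        rw [Finset.mul_sum]
        apply Finset.sum_congr rfl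
        intro t _
        have := hω t
        simp only [hG]
        field_simp
      rw [heq]
      have hfac : 0 < (D u v) ^ p / (k : ℝ) := by positivity
      constructor
      · calc (1 - δ) * (D u v) ^ p = (D u v) ^ p / (k : ℝ) * ((1 - δ) * (k : ℝ)) := by
              field_simp
          _ ≤ _ := mul_le_mul_of_nonneg_left hb1 hfac.le
      · calc _ ≤ (D u v) ^ p / (k : ℝ) * ((1 + δ) * (k : ℝ)) :=
              mul_le_mul_of_nonneg_left hb2 hfac.le
          _ = (1 + δ) * (D u v) ^ p := by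
              field_simp

end Vale.Agent.P249
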