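import Mathlib

/-!
# P249, part 7: numerical estimates
-/

namespace Vale.Agent.P249

theorem log_two_le_log (n : ℕ) (hn : 2 ≤ n) : Real.log 2 ≤ Real.log n := by
  apply Real.log_le_log (by norm_num)
  exact_mod_cast hn

theorem T_bound (n : ℕ) (hn : 2 ≤ n) :
    2 * (((Nat.log 2 n + 1 : ℕ) : ℝ) + 1) ≤ 9 * Real.log n := by
  have h1 : 2 ^ (Nat.log 2 n) ≤ n := Nat.pow_log_le_self 2 (by omega)
  have h2 : ((Nat.log 2 n : ℕ) : ℝ) * Real.log 2 ≤ Real.log n := by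
    rw [← Real.log_pow]
    apply Real.log_le_log (by positivity)
    exact_mod_cast h1
  have h3 := log_two_le_log n hn
  have h4 : (0.6931 : ℝ) < Real.log 2 := by
    have := Real.log_two_gt_d9
    linarith
  set t : ℝ := ((Nat.log 2 n : ℕ) : ℝ) with ht
  set L := Real.log n with hL
  set l2 := Real.log 2 with hl2
  have h5 : (2 * ((t + 1) + 1)) * l2 ≤ (9 * L) * l2 := by nlinarith
  have h6 : 2 * ((t + 1) + 1) ≤ 9 * L := le_of_mul_le_mul_right h5 (by linarith)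
  push_cast
  exact h6

theorem numeric (n : ℕ) (hn : 2 ≤ n) (p : ℝ) (hp : 0 < p) (δ : ℝ) (hδ : 0 < δ) (hδ1 : δ ≤ 1) :
    ∃ k : ℕ, 4 * (2 * (2 * (((Nat.log 2 n + 1 : ℕ) : ℝ) + 1)) ^ p
        * ((n : ℝ) * (1 + Real.log n))) * Real.log (2 * (n : ℝ) ^ 2) / δ ^ 2 ≤ (k : ℝ) ∧
      (k : ℝ) ≤ 64 * 9 ^ p * (1 / δ) ^ 2 * n * (Real.log n) ^ (p + 2) := by
  have h3 := log_two_le_log n hn
  have h4 : (0.6931 : ℝ) < Real.log 2 := by
    have := Real.log_two_gt_d9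
    linarith
  have hn' : (2 : ℝ) ≤ (n : ℝ) := by exact_mod_cast hn
  set L := Real.log n with hL
  have hLpos : 0 < L := by linarith
  have hT := T_bound n hn
  set τ : ℝ := 2 * (((Nat.log 2 n + 1 : ℕ) : ℝ) + 1) with hτ
  have hτ0 : 0 ≤ τ := by positivity
  have hτp : τ ^ p ≤ 9 ^ p * L ^ p := by
    rw [← Real.mul_rpow (by norm_num) hLpos.le]
    exact Real.rpow_le_rpow hτ0 hT hp.le
  have hlog2 : Real.log (2 * (n : ℝ) ^ 2) ≤ 3 * L := by
    rw [Real.log_mul (by norm_num) (by positivity), Real.log_pow]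
    push_cast
    linarith
  have hlog2' : 0 ≤ Real.log (2 * (n : ℝ) ^ 2) := by
    apply Real.log_nonneg
    nlinarith
  have h1L : 1 + L ≤ 2.5 * L := by linarith
  have hLp : 0 < L ^ p := Real.rpow_pos_of_pos hLpos p
  have h9p : 0 < (9 : ℝ) ^ p := Real.rpow_pos_of_pos (by norm_num) p
  have hLp2 : L ^ (p + 2) = L ^ p * L ^ 2 := by
    rw [Real.rpow_add hLpos]
    norm_num
  set X : ℝ := 4 * (2 * τ ^ p * ((n : ℝ) * (1 + L))) * Real.log (2 * (n : ℝ) ^ 2) / δ ^ 2 with hX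
  have hτp0 : 0 ≤ τ ^ p := Real.rpow_nonneg hτ0 p
  have hXle : X ≤ 60 * 9 ^ p * (1 / δ) ^ 2 * n * L ^ (p + 2) := by
    rw [hX, hLp2]
    have e1 : 4 * (2 * τ ^ p * ((n : ℝ) * (1 + L))) * Real.log (2 * (n : ℝ) ^ 2)
        ≤ 4 * (2 * (9 ^ p * L ^ p) * ((n : ℝ) * (2.5 * L))) * (3 * L) := by
      apply mul_le_mul _ hlog2 hlog2' (by positivity)
      apply mul_le_mul_of_nonneg_left _ (by norm_num)
      apply mul_le_mul _ _ (by positivity) (by positivity)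
      · linarith
      · apply mul_le_mul_of_nonneg_left h1L (by positivity)
    calc 4 * (2 * τ ^ p * ((n : ℝ) * (1 + L))) * Real.log (2 * (n : ℝ) ^ 2) / δ ^ 2
        ≤ 4 * (2 * (9 ^ p * L ^ p) * ((n : ℝ) * (2.5 * L))) * (3 * L) / δ ^ 2 := by
          apply div_le_div_of_nonneg_right e1 (by positivity)
      _ = 60 * 9 ^ p * (1 / δ) ^ 2 * n * (L ^ p * L ^ 2) := by
          field_simp
          ring
  have hone : 1 ≤ 4 * 9 ^ p * (1 / δ) ^ 2 * n * L ^ (p + 2) := by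
    rw [hLp2]
    have g1 : 1 ≤ 9 ^ p * L ^ p := by
      rw [← Real.mul_rpow (by norm_num) hLpos.le]
      apply Real.one_le_rpow _ hp.le
      linarith
    have g2 : 1 ≤ (1 / δ) ^ 2 := by
      have : 1 ≤ 1 / δ := by
        rw [le_div_iff₀ hδ]
        linarith
      nlinarith
    have g3 : (0.48 : ℝ) ≤ L ^ 2 := by nlinarith
    have g4 : 1 ≤ (9 ^ p * L ^ p) * (1 / δ) ^ 2 := by nlinarith
    have g5 : (0.96 : ℝ) ≤ (n : ℝ) * L ^ 2 := by nlinarith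
    calc (1 : ℝ) ≤ 4 * (1 * 0.96) := by norm_num
      _ ≤ 4 * (((9 ^ p * L ^ p) * (1 / δ) ^ 2) * ((n : ℝ) * L ^ 2)) := by
          apply mul_le_mul_of_nonneg_left _ (by norm_num)
          apply mul_le_mul g4 g5 (by norm_num) (by positivity)
      _ = 4 * 9 ^ p * (1 / δ) ^ 2 * n * (L ^ p * L ^ 2) := by ring
  have hX0 : 0 ≤ X := by
    rw [hX]
    positivity
  refine ⟨⌈X⌉₊, Nat.le_ceil X, ?_⟩
  have := Nat.ceil_lt_add_one hX0
  have e : 64 * 9 ^ p * (1 / δ) ^ 2 * n * L ^ (p + 2)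
      = 60 * 9 ^ p * (1 / δ) ^ 2 * n * L ^ (p + 2) + 4 * 9 ^ p * (1 / δ) ^ 2 * n * L ^ (p + 2) := by
    ring
  rw [e]
  linarith

end Vale.Agent.P249
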