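import Mathlib
import Vale.Agent.P249.Core
import Vale.Agent.P249.Numeric

/-!
# P249, part 8: the abstract embedding theorem
-/

namespace Vale.Agent.P249

open MeasureTheory Finset

theorem abstract_embed {Ω : Type*} [MeasurableSpace Ω] (μ : Measure Ω) (n : ℕ) (hn : 2 ≤ n)
    (a : Fin n → Ω → ℝ) (D : Fin n → Fin n → ℝ) (hD0 : ∀ u, D u u = 0)
    (hsymm : ∀ u v, D u v = D v u) (htri : ∀ u v w, D u w ≤ D u v + D v w)
    (hpos : ∀ u v, u ≠ v → 0 < D u v) (p : ℝ) (hp : 1 ≤ p)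
    (hint : ∀ u v, Integrable (fun ω => |a u ω - a v ω| ^ p) μ)
    (hD : ∀ u v, ∫ ω, |a u ω - a v ω| ^ p ∂μ = (D u v) ^ p)
    (Δ : ℝ) (hΔ : 1 < Δ) :
    ∃ d : ℕ, (d : ℝ) ≤ 64 * 9 ^ p * ((Δ + 1) / (Δ - 1)) ^ 2 * n * (Real.log n) ^ (p + 2) ∧
      ∃ (f : Fin n → Fin d → ℝ) (s : ℝ), 0 < s ∧ ∀ i j,
        s * D i j ≤ (∑ t, |f i t - f j t| ^ p) ^ (1 / p) ∧
        (∑ t, |f i t - f j t| ^ p) ^ (1 / p) ≤ Δ * s * D i j := by
  have hp0 : 0 < p := by linarith
  set δ : ℝ := (Δ - 1) / (Δ + 1) with hδdef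
  have hΔ1 : 0 < Δ - 1 := by linarith
  have hΔ2 : 0 < Δ + 1 := by linarith
  have hδ : 0 < δ := by positivity
  have hδlt : δ < 1 := by
    rw [hδdef, div_lt_one hΔ2]
    linarith
  have hinv : 1 / δ = (Δ + 1) / (Δ - 1) := by
    rw [hδdef]
    field_simp
  obtain ⟨k, hk1, hk2⟩ := numeric n hn p hp0 δ hδ hδlt.le
  rw [hinv] at hk2
  have hcard : Fintype.card (Fin n) = n := Fintype.card_fin n
  have hT : Fintype.card (Fin n) ≤ 2 ^ (Nat.log 2 n + 1) := by
    rw [hcard]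
    exact (Nat.lt_pow_succ_log_self (by norm_num) n).le
  obtain ⟨ω, c, hc, hb⟩ := core μ a D hD0 hsymm htri hpos p hp0 hint hD (by rw [hcard]; exact hn)
    (Nat.log 2 n + 1) hT δ hδ hδlt.le k (by rw [hcard]; exact hk1)
  refine ⟨k, hk2, fun i t => (c t) ^ (1 / p) * a i (ω t), (1 - δ) ^ (1 / p), ?_, ?_⟩
  · apply Real.rpow_pos_of_pos
    linarith
  · intro i j
    have hsum : ∑ t, |(c t) ^ (1 / p) * a i (ω t) - (c t) ^ (1 / p) * a j (ω t)| ^ p
        = ∑ t, c t * |a i (ω t) - a j (ω t)| ^ p := by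
      apply Finset.sum_congr rfl
      intro t _
      rw [← mul_sub, abs_mul, Real.mul_rpow (abs_nonneg _) (abs_nonneg _),
        abs_of_nonneg (Real.rpow_nonneg (hc t).le _), ← Real.rpow_mul (hc t).le,
        one_div_mul_cancel hp0.ne', Real.rpow_one]
    rw [hsum]
    obtain ⟨hb1, hb2⟩ := hb i j
    have hDnn : 0 ≤ D i j := D_nonneg D hD0 hpos i j
    have hroot : ((D i j) ^ p) ^ (1 / p) = D i j := by
      rw [← Real.rpow_mul hDnn, mul_one_div_cancel hp0.ne', Real.rpow_one]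
    have h1δ : 0 < 1 - δ := by linarith
    constructor
    · calc (1 - δ) ^ (1 / p) * D i j = ((1 - δ) * (D i j) ^ p) ^ (1 / p) := by
            rw [Real.mul_rpow h1δ.le (Real.rpow_nonneg hDnn _), hroot]
        _ ≤ _ := by
            apply Real.rpow_le_rpow _ hb1 (by positivity)
            exact mul_nonneg h1δ.le (Real.rpow_nonneg hDnn _)
    · have hsum0 : 0 ≤ ∑ t, c t * |a i (ω t) - a j (ω t)| ^ p :=
        Finset.sum_nonneg (fun t _ => mul_nonneg (hc t).le (Real.rpow_nonneg (abs_nonneg _) _))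
      have h1 : 1 + δ = Δ * (1 - δ) := by
        rw [hδdef]
        field_simp
        ring
      have hΔp : Δ ^ (1 / p) ≤ Δ := by
        calc Δ ^ (1 / p) ≤ Δ ^ (1 : ℝ) := by
              apply Real.rpow_le_rpow_of_exponent_le hΔ.le
              rw [div_le_one hp0]
              exact hp
          _ = Δ := Real.rpow_one Δ
      calc (∑ t, c t * |a i (ω t) - a j (ω t)| ^ p) ^ (1 / p)
          ≤ ((1 + δ) * (D i j) ^ p) ^ (1 / p) := Real.rpow_le_rpow hsum0 hb2 (by positivity)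
        _ = Δ ^ (1 / p) * (1 - δ) ^ (1 / p) * D i j := by
            rw [Real.mul_rpow (by linarith) (Real.rpow_nonneg hDnn _), hroot, h1,
              Real.mul_rpow (by linarith) h1δ.le]
        _ ≤ Δ * (1 - δ) ^ (1 / p) * D i j := by
            apply mul_le_mul_of_nonneg_right _ hDnn
            apply mul_le_mul_of_nonneg_right hΔp
            exact Real.rpow_nonneg h1δ.le _

end Vale.Agent.P249
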