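import Mathlib
import Vale.Agent.P249.Embed

/-!
# P249, part 9: from `Lp` spaces to the abstract theorem
-/

namespace Vale.Agent.P249

open MeasureTheory Finset

variable {α : Type*} [MeasurableSpace α] {μ : Measure α} {p : ENNReal}

theorem toReal_pos_of_fact [hp1 : Fact (1 ≤ p)] (hp : p ≠ ⊤) : 1 ≤ p.toReal := by
  have h := hp1.out
  rw [← ENNReal.toReal_one]
  exact (ENNReal.toReal_le_toReal (by simp) hp).2 h

theorem integrable_abs_rpow [Fact (1 ≤ p)] (hp : p ≠ ⊤) (f : Lp ℝ p μ) :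
    Integrable (fun ω => |f ω| ^ p.toReal) μ := by
  have h0 : p ≠ 0 := by
    intro h
    have := toReal_pos_of_fact (p := p) hp
    rw [h] at this
    simp at this
    linarith
  have := (Lp.memLp f).integrable_norm_rpow h0 hp
  simpa [Real.norm_eq_abs] using this

theorem integral_abs_rpow [Fact (1 ≤ p)] (hp : p ≠ ⊤) (f : Lp ℝ p μ) :
    ∫ ω, |f ω| ^ p.toReal ∂μ = ‖f‖ ^ p.toReal := by
  have h1 := toReal_pos_of_fact (p := p) hp
  have h0 : p ≠ 0 := by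
    intro h
    rw [h] at h1
    simp at h1
    linarith
  have hpos : 0 < p.toReal := by linarith
  have hnn : 0 ≤ ∫ ω, ‖f ω‖ ^ p.toReal ∂μ :=
    integral_nonneg (fun ω => Real.rpow_nonneg (norm_nonneg _) _)
  rw [Lp.norm_def, (Lp.memLp f).eLpNorm_eq_integral_rpow_norm h0 hp,
    ENNReal.toReal_ofReal (Real.rpow_nonneg hnn _), ← Real.rpow_mul hnn,
    inv_mul_cancel₀ hpos.ne', Real.rpow_one]
  simp [Real.norm_eq_abs]

theorem integrable_sub [Fact (1 ≤ p)] (hp : p ≠ ⊤) (f g : Lp ℝ p μ) :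
    Integrable (fun ω => |f ω - g ω| ^ p.toReal) μ := by
  refine (integrable_abs_rpow hp (f - g)).congr ?_
  filter_upwards [Lp.coeFn_sub f g] with ω hω
  rw [hω]
  rfl

theorem integral_sub' [Fact (1 ≤ p)] (hp : p ≠ ⊤) (f g : Lp ℝ p μ) :
    ∫ ω, |f ω - g ω| ^ p.toReal ∂μ = ‖f - g‖ ^ p.toReal := by
  rw [← integral_abs_rpow hp (f - g)]
  apply integral_congr_ae
  filter_upwards [Lp.coeFn_sub f g] with ω hω
  rw [hω]
  rfl

theorem Lp_embed [Fact (1 ≤ p)] (hp : p ≠ ⊤)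
    (Δ : ℝ) (hΔ : 1 < Δ) (n : ℕ) (hn : 2 ≤ n) (x : Fin n → Lp ℝ p μ)
    (hx : Function.Injective x) :
    ∃ d : ℕ, (d : ℝ) ≤ 64 * 9 ^ p.toReal * ((Δ + 1) / (Δ - 1)) ^ 2 * n
        * (Real.log n) ^ (p.toReal + 2) ∧
      ∃ (f : Fin n → PiLp p (fun _ : Fin d => ℝ)) (s : ℝ), 0 < s ∧ ∀ i j,
        s * ‖x i - x j‖ ≤ ‖f i - f j‖ ∧ ‖f i - f j‖ ≤ Δ * s * ‖x i - x j‖ := by
  have h1 := toReal_pos_of_fact (p := p) hp
  have hpos : 0 < p.toReal := by linarith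
  obtain ⟨d, hd, f, s, hs, hf⟩ := abstract_embed μ n hn (fun u => (x u : α → ℝ))
    (fun u v => ‖x u - x v‖) (fun u => by simp) (fun u v => norm_sub_rev _ _)
    (fun u v w => norm_sub_le_norm_sub_add_norm_sub _ _ _)
    (fun u v huv => norm_pos_iff.2 (sub_ne_zero.2 (hx.ne huv))) p.toReal h1
    (fun u v => integrable_sub hp (x u) (x v)) (fun u v => integral_sub' hp (x u) (x v)) Δ hΔ
  refine ⟨d, hd, fun i => WithLp.toLp p (f i), s, hs, ?_⟩
  intro i j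
  have hnorm : ‖WithLp.toLp p (f i) - WithLp.toLp p (f j)‖
      = (∑ t, |f i t - f j t| ^ p.toReal) ^ (1 / p.toReal) := by
    rw [PiLp.norm_eq_sum hpos]
    simp [Real.norm_eq_abs]
  rw [hnorm]
  exact hf i j

end Vale.Agent.P249
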