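import Mathlib
import Vale.Agent.P249.Bounds
import Vale.Agent.P249.LpFacts

/-!
# P249: additive (epsilon-isometric) sampling for families with an integrable envelope
-/

namespace Vale.Agent.P249

open MeasureTheory Finset

theorem additive_core {P : Type*} [Fintype P] [Nonempty P] {Ω : Type*} [MeasurableSpace Ω]
    (μ : Measure Ω) (F : P → Ω → ℝ) (hF0 : ∀ e ω, 0 ≤ F e ω) (hFint : ∀ e, Integrable (F e) μ)
    (g : Ω → ℝ) (hg0 : ∀ ω, 0 ≤ g ω) (hgint : Integrable g μ) (hFg : ∀ e ω, F e ω ≤ g ω)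
    (hgpos : 0 < ∫ ω, g ω ∂μ)
    (M : ℝ) (hM : ∫ ω, g ω ∂μ ≤ M) (ε : ℝ) (hε : 0 < ε) (hεM : ε ≤ M) (k : ℕ)
    (hk : 8 * M ^ 2 * Real.log (2 * (Fintype.card P : ℝ)) / ε ^ 2 ≤ (k : ℝ)) :
    ∃ (ω : Fin k → Ω) (c : Fin k → ℝ), (∀ t, 0 < c t) ∧ ∀ e,
      |∑ t, c t * F e (ω t) - ∫ ω, F e ω ∂μ| ≤ ε := by
  set I := ∫ ω, g ω ∂μ with hI
  have hMpos : 0 < M := lt_of_lt_of_le hε hεM
  set h : Ω → ℝ := fun ω => g ω / I with hh
  set m : P → ℝ := fun e => ∫ ω, F e ω ∂μ with hm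
  have hm0 : ∀ e, 0 ≤ m e := fun e => integral_nonneg (hF0 e)
  have hmI : ∀ e, m e ≤ I := fun e => integral_mono (hFint e) hgint (hFg e)
  have hmM : ∀ e, m e ≤ M := fun e => le_trans (hmI e) hM
  set G : P → Ω → ℝ := fun e ω => (F e ω + (M - m e) * h ω) / M with hG
  have hhint : Integrable h μ := hgint.div_const _
  have hh1 : ∫ ω, h ω ∂μ = 1 := by
    simp only [hh]
    rw [integral_div, ← hI, div_self hgpos.ne']
  have hh0 : ∀ ω, 0 ≤ h ω := fun ω => div_nonneg (hg0 ω) hgpos.le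
  have hGint : ∀ e ∈ (univ : Finset P), Integrable (G e) μ := fun e _ =>
    ((hFint e).add (hhint.const_mul _)).div_const _
  have hG1 : ∀ e ∈ (univ : Finset P), ∫ ω, G e ω ∂μ = 1 := by
    intro e _
    simp only [hG]
    rw [integral_div, integral_add (hFint e) (hhint.const_mul _), integral_const_mul, hh1]
    have : ∫ ω, F e ω ∂μ = m e := rfl
    rw [this]
    field_simp
    ring
  have hG0 : ∀ e ∈ (univ : Finset P), ∀ ω, 0 ≤ G e ω := by
    intro e _ ω
    apply div_nonneg _ hMpos.le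
    have := mul_nonneg (sub_nonneg.2 (hmM e)) (hh0 ω)
    have := hF0 e ω
    linarith
  have hgh : ∀ ω, g ω = I * h ω := by
    intro ω
    simp only [hh]
    field_simp
  have hGK : ∀ e ∈ (univ : Finset P), ∀ ω, G e ω ≤ 2 * h ω := by
    intro e _ ω
    simp only [hG]
    rw [div_le_iff₀ hMpos]
    have h1 : F e ω ≤ M * h ω := by
      calc F e ω ≤ g ω := hFg e ω
        _ = I * h ω := hgh ω
        _ ≤ M * h ω := mul_le_mul_of_nonneg_right hM (hh0 ω)
    have h2 : (M - m e) * h ω ≤ M * h ω := by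
      apply mul_le_mul_of_nonneg_right _ (hh0 ω)
      linarith [hm0 e]
    linarith
  set δ := ε / M with hδ
  have hδ0 : 0 < δ := by positivity
  have hδ1 : δ ≤ 1 := by
    rw [hδ, div_le_one hMpos]
    exact hεM
  have hk' : 4 * 2 * Real.log (2 * ((univ : Finset P).card : ℝ)) / δ ^ 2 ≤ (k : ℝ) := by
    refine le_trans (le_of_eq ?_) hk
    rw [hδ, Finset.card_univ]
    field_simp
    ring
  have hcard : (1 : ℝ) ≤ (Fintype.card P : ℝ) := by
    exact_mod_cast Fintype.card_pos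
  have hkpos : 0 < (k : ℝ) := by
    refine lt_of_lt_of_le ?_ hk
    have : 0 < Real.log (2 * (Fintype.card P : ℝ)) := Real.log_pos (by linarith)
    positivity
  obtain ⟨ω, hω, hb⟩ := sample_bounds (univ : Finset P) G h hGint hG1 hhint hh1 hh0 2 (by norm_num)
    hG0 hGK δ hδ0 hδ1 k hk'
  refine ⟨ω, fun t => 1 / ((k : ℝ) * h (ω t)), ?_, ?_⟩
  · intro t
    have := hω t
    positivity
  · intro e
    obtain ⟨hb1, hb2⟩ := hb e (Finset.mem_univ e)
    have heq : ∑ t, G e (ω t) / h (ω t)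
        = ((k : ℝ) * ∑ t, 1 / ((k : ℝ) * h (ω t)) * F e (ω t) + (k : ℝ) * (M - m e)) / M := by
      rw [Finset.mul_sum, eq_div_iff hMpos.ne', Finset.sum_mul]
      have : (k : ℝ) * (M - m e) = ∑ _t : Fin k, (M - m e) := by
        rw [Finset.sum_const, Finset.card_univ, Fintype.card_fin, nsmul_eq_mul]
      rw [this, ← Finset.sum_add_distrib]
      apply Finset.sum_congr rfl
      intro t _
      have := hω t
      simp only [hG]
      field_simp
    set S := ∑ t, 1 / ((k : ℝ) * h (ω t)) * F e (ω t) with hS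
    rw [heq] at hb1 hb2
    rw [le_div_iff₀ hMpos] at hb1
    rw [div_le_iff₀ hMpos] at hb2
    have hδM : δ * M = ε := by
      rw [hδ]
      field_simp
    have e1 : (k : ℝ) * (m e - ε) ≤ (k : ℝ) * S := by
      have : (1 - δ) * (k : ℝ) * M = (k : ℝ) * M - (k : ℝ) * (δ * M) := by ring
      rw [this, hδM] at hb1
      nlinarith
    have e2 : (k : ℝ) * S ≤ (k : ℝ) * (m e + ε) := by
      have : (1 + δ) * (k : ℝ) * M = (k : ℝ) * M + (k : ℝ) * (δ * M) := by ring
      rw [this, hδM] at hb2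
      nlinarith
    have f1 := le_of_mul_le_mul_left e1 hkpos
    have f2 := le_of_mul_le_mul_left e2 hkpos
    rw [abs_le]
    constructor <;> linarith

end Vale.Agent.P249
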