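import Mathlib

/-!
# P249: convexity lemmas for real powers
-/

namespace Vale.Agent.P249

open Finset

theorem jensen_avg {κ : Type*} (s : Finset κ) (hs : s.Nonempty) (f : κ → ℝ) (p : ℝ)
    (hp : 1 ≤ p) :
    |(∑ i ∈ s, f i) / (s.card : ℝ)| ^ p ≤ (∑ i ∈ s, |f i| ^ p) / (s.card : ℝ) := by
  have hc : 0 < (s.card : ℝ) := by exact_mod_cast Finset.card_pos.2 hs
  have h := Real.rpow_arith_mean_le_arith_mean_rpow s (fun _ => 1 / (s.card : ℝ))
    (fun i => |f i|) (fun i _ => by positivity)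
    (by rw [Finset.sum_const, nsmul_eq_mul]; field_simp) (fun i _ => abs_nonneg _) hp
  have h1 : |(∑ i ∈ s, f i) / (s.card : ℝ)| ≤ ∑ i ∈ s, 1 / (s.card : ℝ) * |f i| := by
    rw [abs_div, abs_of_pos hc, ← Finset.mul_sum, div_eq_mul_one_div, mul_comm]
    apply mul_le_mul_of_nonneg_left (Finset.abs_sum_le_sum_abs _ _) (by positivity)
  have h2 : ∑ i ∈ s, 1 / (s.card : ℝ) * |f i| ^ p = (∑ i ∈ s, |f i| ^ p) / (s.card : ℝ) := by
    rw [← Finset.mul_sum]
    ring
  rw [← h2]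
  exact le_trans (Real.rpow_le_rpow (abs_nonneg _) h1 (by linarith)) h

theorem three_term (x y z p : ℝ) (hp : 1 ≤ p) :
    |x + y + z| ^ p ≤ 3 ^ (p - 1) * (|x| ^ p + |y| ^ p + |z| ^ p) := by
  have h := jensen_avg (Finset.univ : Finset (Fin 3)) Finset.univ_nonempty ![x, y, z] p hp
  simp only [Fin.sum_univ_three, Finset.card_univ, Fintype.card_fin] at h
  simp only [Matrix.cons_val_zero, Matrix.cons_val_one, Matrix.cons_val_two, Matrix.head_cons,
    Matrix.tail_cons] at h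
  have h3 : |x + y + z| ^ p = 3 ^ p * |(x + y + z) / ((3 : ℕ) : ℝ)| ^ p := by
    rw [← Real.mul_rpow (by norm_num) (abs_nonneg _)]
    congr 1
    rw [abs_div]
    simp
    field_simp
  rw [h3]
  have h4 : (3 : ℝ) ^ p = 3 ^ (p - 1) * 3 := by
    rw [Real.rpow_sub_one (by norm_num)]
    field_simp
  calc 3 ^ p * |(x + y + z) / ((3 : ℕ) : ℝ)| ^ p
      ≤ 3 ^ p * ((|x| ^ p + |y| ^ p + |z| ^ p) / ((3 : ℕ) : ℝ)) := by
        apply mul_le_mul_of_nonneg_left h (by positivity)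
    _ = 3 ^ (p - 1) * (|x| ^ p + |y| ^ p + |z| ^ p) := by
        rw [h4]
        push_cast
        field_simp

end Vale.Agent.P249
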