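import Mathlib
import Vale.Agent.P249.Metric
import Vale.Agent.P249.Jensen

/-!
# P249: the sharper key inequality (constant depending only on `p`)
-/

namespace Vale.Agent.P249

open Finset

variable {ι : Type*} [Fintype ι]

/-- average of `a` over a finset -/
noncomputable def avg (a : ι → ℝ) (B : Finset ι) : ℝ := (∑ x ∈ B, a x) / (B.card : ℝ)

/-- local energy at `u` -/
noncomputable def en (D : ι → ι → ℝ) (p : ℝ) (a : ι → ℝ) (u : ι) : ℝ :=
  ∑ v, lam D u v * (|a u - a v| ^ p / (D u v) ^ p)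

theorem en_nonneg (D : ι → ι → ℝ) (hD0 : ∀ u, D u u = 0)
    (hpos : ∀ u v, u ≠ v → 0 < D u v) (p : ℝ) (a : ι → ℝ) (u : ι) : 0 ≤ en D p a u :=
  Finset.sum_nonneg (fun v _ => mul_nonneg (lam_nonneg D u v) (g_nonneg D hD0 hpos p a u v))

theorem self_mem_ball (D : ι → ι → ℝ) (hD0 : ∀ u, D u u = 0) (u : ι) (r : ℝ) (hr : 0 ≤ r) :
    u ∈ ball D u r := by
  rw [mem_ball, hD0]
  exact hr

theorem ball_card_pos (D : ι → ι → ℝ) (hD0 : ∀ u, D u u = 0) (u : ι) (r : ℝ) (hr : 0 ≤ r) :
    0 < ((ball D u r).card : ℝ) := by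
  exact_mod_cast Finset.card_pos.2 ⟨u, self_mem_ball D hD0 u r hr⟩

theorem helper2 (D : ι → ι → ℝ) (hD0 : ∀ u, D u u = 0)
    (hpos : ∀ u v, u ≠ v → 0 < D u v) (p : ℝ) (hp : 0 < p) (a : ι → ℝ)
    (z l : ι) (ρ : ℝ) (B : Finset ι)
    (hρ : 0 < ρ) (hl : D z l ≤ ρ) (hB : ball D z (D z l) ⊆ B) :
    |a z - a l| ^ p / ρ ^ p / (B.card : ℝ) ≤ lam D z l * (|a z - a l| ^ p / (D z l) ^ p) := by
  by_cases hzl : l = z
  · subst hzl
    rw [sub_self, abs_zero, Real.zero_rpow hp.ne', zero_div, zero_div, zero_div, mul_zero]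
  · have hd : 0 < D z l := hpos z l (fun h => hzl h.symm)
    have hz : z ∈ ball D z (D z l) := self_mem_ball D hD0 z _ hd.le
    have hc1 : 0 < (ball D z (D z l)).card := Finset.card_pos.2 ⟨z, hz⟩
    have hc2 : (ball D z (D z l)).card ≤ B.card := Finset.card_le_card hB
    have hlam : 1 / (B.card : ℝ) ≤ lam D z l := by
      unfold lam
      apply one_div_le_one_div_of_le
      · exact_mod_cast hc1
      · exact_mod_cast hc2
    have hg : |a z - a l| ^ p / ρ ^ p ≤ |a z - a l| ^ p / (D z l) ^ p := by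
      apply div_le_div_of_nonneg_left (Real.rpow_nonneg (abs_nonneg _) _)
        (Real.rpow_pos_of_pos hd p)
      exact Real.rpow_le_rpow hd.le hl hp.le
    calc |a z - a l| ^ p / ρ ^ p / (B.card : ℝ)
        = (1 / (B.card : ℝ)) * (|a z - a l| ^ p / ρ ^ p) := by ring
      _ ≤ lam D z l * (|a z - a l| ^ p / (D z l) ^ p) := by
        apply mul_le_mul hlam hg _ (lam_nonneg D z l)
        exact div_nonneg (Real.rpow_nonneg (abs_nonneg _) _) (Real.rpow_nonneg hρ.le _)

theorem sum_ball_le (D : ι → ι → ℝ) (hD0 : ∀ u, D u u = 0)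
    (hpos : ∀ u v, u ≠ v → 0 < D u v) (p : ℝ) (hp : 0 < p) (a : ι → ℝ)
    (u : ι) (r : ℝ) (hr : 0 < r) :
    ∑ v ∈ ball D u r, |a u - a v| ^ p ≤ ((ball D u r).card : ℝ) * r ^ p * en D p a u := by
  have hc := ball_card_pos D hD0 u r hr.le
  have hrp : 0 < r ^ p := Real.rpow_pos_of_pos hr p
  have h1 : ∑ v ∈ ball D u r, |a u - a v| ^ p / r ^ p / ((ball D u r).card : ℝ)
      ≤ en D p a u := by
    calc ∑ v ∈ ball D u r, |a u - a v| ^ p / r ^ p / ((ball D u r).card : ℝ)
        ≤ ∑ v ∈ ball D u r, lam D u v * (|a u - a v| ^ p / (D u v) ^ p) := by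
          apply Finset.sum_le_sum
          intro v hv
          rw [mem_ball] at hv
          apply helper2 D hD0 hpos p hp a u v r _ hr hv
          intro x hx
          rw [mem_ball] at hx ⊢
          linarith
      _ ≤ en D p a u := by
          apply Finset.sum_le_sum_of_subset_of_nonneg (Finset.subset_univ _)
          intro x _ _
          exact mul_nonneg (lam_nonneg D u x) (g_nonneg D hD0 hpos p a u x)
  have h2 : ∑ v ∈ ball D u r, |a u - a v| ^ p / r ^ p / ((ball D u r).card : ℝ)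
      = (∑ v ∈ ball D u r, |a u - a v| ^ p) / (((ball D u r).card : ℝ) * r ^ p) := by
    rw [Finset.sum_div]
    apply Finset.sum_congr rfl
    intro v _
    field_simp
  rw [h2, div_le_iff₀ (by positivity)] at h1
  linarith

theorem sub_avg_le (D : ι → ι → ℝ) (hD0 : ∀ u, D u u = 0)
    (hpos : ∀ u v, u ≠ v → 0 < D u v) (p : ℝ) (hp : 1 ≤ p) (a : ι → ℝ)
    (u : ι) (r : ℝ) (hr : 0 < r) :
    |a u - avg a (ball D u r)| ^ p ≤ r ^ p * en D p a u := by
  have hc := ball_card_pos D hD0 u r hr.le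
  have hne : (ball D u r).Nonempty := ⟨u, self_mem_ball D hD0 u r hr.le⟩
  have h1 : a u - avg a (ball D u r)
      = (∑ v ∈ ball D u r, (a u - a v)) / ((ball D u r).card : ℝ) := by
    unfold avg
    rw [Finset.sum_sub_distrib, Finset.sum_const, nsmul_eq_mul]
    field_simp
  rw [h1]
  refine le_trans (jensen_avg _ hne _ p hp) ?_
  rw [div_le_iff₀ hc]
  have := sum_ball_le D hD0 hpos p (by linarith) a u r hr
  linarith

theorem avg_sub_avg_le (a : ι → ℝ) (B B' : Finset ι) (hB : B.Nonempty) (hB' : B'.Nonempty)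
    (p : ℝ) (hp : 1 ≤ p) :
    (B.card : ℝ) * (B'.card : ℝ) * |avg a B - avg a B'| ^ p
      ≤ ∑ w ∈ B, ∑ w' ∈ B', |a w - a w'| ^ p := by
  have hb : 0 < (B.card : ℝ) := by exact_mod_cast Finset.card_pos.2 hB
  have hb' : 0 < (B'.card : ℝ) := by exact_mod_cast Finset.card_pos.2 hB'
  have hne : (B ×ˢ B').Nonempty := hB.product hB'
  have h := jensen_avg (B ×ˢ B') hne (fun x => a x.1 - a x.2) p hp
  rw [Finset.card_product] at h
  push_cast at h
  have h1 : (∑ x ∈ B ×ˢ B', (a x.1 - a x.2)) / ((B.card : ℝ) * (B'.card : ℝ))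
      = avg a B - avg a B' := by
    unfold avg
    rw [Finset.sum_product]
    simp only [Finset.sum_sub_distrib, Finset.sum_const, nsmul_eq_mul]
    rw [← Finset.mul_sum]
    field_simp
  rw [h1, Finset.sum_product, le_div_iff₀ (by positivity)] at h
  linarith

theorem cross_le (D : ι → ι → ℝ) (hD0 : ∀ u, D u u = 0) (hsymm : ∀ u v, D u v = D v u)
    (htri : ∀ u v w, D u w ≤ D u v + D v w)
    (hpos : ∀ u v, u ≠ v → 0 < D u v) (p : ℝ) (hp : 0 < p) (a : ι → ℝ)
    (u v : ι) (r : ℝ) (hr : 0 < r) (huv : D u v ≤ r) :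
    ∑ w ∈ ball D u r, ∑ w' ∈ ball D v r, |a w - a w'| ^ p
      ≤ ((ball D u (4 * r)).card : ℝ) * (3 * r) ^ p * ∑ x, en D p a x := by
  have hc := ball_card_pos D hD0 u (4 * r) (by linarith)
  have hrp : 0 < (3 * r) ^ p := Real.rpow_pos_of_pos (by linarith) p
  have h1 : ∑ w ∈ ball D u r, ∑ w' ∈ ball D v r,
      |a w - a w'| ^ p / (3 * r) ^ p / ((ball D u (4 * r)).card : ℝ) ≤ ∑ x, en D p a x := by
    calc ∑ w ∈ ball D u r, ∑ w' ∈ ball D v r,
          |a w - a w'| ^ p / (3 * r) ^ p / ((ball D u (4 * r)).card : ℝ)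
        ≤ ∑ w ∈ ball D u r, en D p a w := by
          apply Finset.sum_le_sum
          intro w hw
          rw [mem_ball] at hw
          calc ∑ w' ∈ ball D v r,
                |a w - a w'| ^ p / (3 * r) ^ p / ((ball D u (4 * r)).card : ℝ)
              ≤ ∑ w' ∈ ball D v r, lam D w w' * (|a w - a w'| ^ p / (D w w') ^ p) := by
                apply Finset.sum_le_sum
                intro w' hw'
                rw [mem_ball] at hw'
                have hww' : D w w' ≤ 3 * r := by
                  have h1 := htri w u w'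
                  have h2 := htri u v w'
                  rw [hsymm w u] at h1
                  linarith
                apply helper2 D hD0 hpos p hp a w w' (3 * r) _ (by linarith) hww'
                intro x hx
                rw [mem_ball] at hx ⊢
                have := htri u w x
                linarith
            _ ≤ en D p a w := by
                apply Finset.sum_le_sum_of_subset_of_nonneg (Finset.subset_univ _)
                intro x _ _
                exact mul_nonneg (lam_nonneg D w x) (g_nonneg D hD0 hpos p a w x)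
      _ ≤ ∑ x, en D p a x := by
          apply Finset.sum_le_sum_of_subset_of_nonneg (Finset.subset_univ _)
          intro x _ _
          exact en_nonneg D hD0 hpos p a x
  have h2 : ∑ w ∈ ball D u r, ∑ w' ∈ ball D v r,
      |a w - a w'| ^ p / (3 * r) ^ p / ((ball D u (4 * r)).card : ℝ)
      = (∑ w ∈ ball D u r, ∑ w' ∈ ball D v r, |a w - a w'| ^ p)
        / (((ball D u (4 * r)).card : ℝ) * (3 * r) ^ p) := by
    rw [Finset.sum_div]
    apply Finset.sum_congr rfl
    intro w _
    rw [Finset.sum_div]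
    apply Finset.sum_congr rfl
    intro w' _
    field_simp
  rw [h2, div_le_iff₀ (by positivity)] at h1
  linarith

end Vale.Agent.P249
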