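import Mathlib
import Vale.Agent.P249.Key2

/-!
# P249: induction on ball sizes
-/

namespace Vale.Agent.P249

open Finset

variable {ι : Type*} [Fintype ι]

theorem case_two_arith (X Y ρ E b b' S : ℝ) (hX : 1 ≤ X) (hY : 0 ≤ Y) (hρ : 0 ≤ ρ) (hE : 0 ≤ E)
    (hb : 0 < b) (hb' : 0 < b')
    (hS : S ≤ X / 3 * (Y * ρ * (b' * E) + b * b' * (2 * X * Y * ρ * E / (b + b'))
      + Y * ρ * (b * E))) :
    S ≤ X * X * Y * ρ * E * (b + b') := by
  have hbb : 0 < b + b' := by linarith
  have h1 : b * b' / (b + b') ≤ (b + b') / 4 := by
    rw [div_le_div_iff₀ hbb (by norm_num)]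
    nlinarith [sq_nonneg (b - b')]
  have h2 : b * b' * (2 * X * Y * ρ * E / (b + b')) = 2 * X * Y * ρ * E * (b * b' / (b + b')) := by
    field_simp
  have hc : 0 ≤ 2 * X * Y * ρ * E := by positivity
  have h3 : b * b' * (2 * X * Y * ρ * E / (b + b')) ≤ 2 * X * Y * ρ * E * ((b + b') / 4) := by
    rw [h2]
    exact mul_le_mul_of_nonneg_left h1 hc
  have h4 : X / 3 * (Y * ρ * (b' * E) + b * b' * (2 * X * Y * ρ * E / (b + b'))
      + Y * ρ * (b * E))
      ≤ X / 3 * (Y * ρ * (b' * E) + 2 * X * Y * ρ * E * ((b + b') / 4) + Y * ρ * (b * E)) := by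
    apply mul_le_mul_of_nonneg_left _ (by positivity)
    linarith
  have h5 : X / 3 * (Y * ρ * (b' * E) + 2 * X * Y * ρ * E * ((b + b') / 4) + Y * ρ * (b * E))
      = (Y * ρ * E * (b + b')) * (X / 3 * (1 + X / 2)) := by ring
  have h6 : X / 3 * (1 + X / 2) ≤ X * X := by nlinarith
  have h7 : 0 ≤ Y * ρ * E * (b + b') := by positivity
  calc S ≤ _ := hS
    _ ≤ _ := h4
    _ = (Y * ρ * E * (b + b')) * (X / 3 * (1 + X / 2)) := h5
    _ ≤ (Y * ρ * E * (b + b')) * (X * X) := mul_le_mul_of_nonneg_left h6 h7
    _ = X * X * Y * ρ * E * (b + b') := by ring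

theorem config_bound (D : ι → ι → ℝ) (hD0 : ∀ u, D u u = 0) (hsymm : ∀ u v, D u v = D v u)
    (htri : ∀ u v w, D u w ≤ D u v + D v w)
    (hpos : ∀ u v, u ≠ v → 0 < D u v) (p : ℝ) (hp : 1 ≤ p) (a : ι → ℝ) :
    ∀ (m : ℕ) (u v : ι) (r : ℝ), 0 < r → D u v ≤ r →
      2 * Fintype.card ι - ((ball D u r).card + (ball D v r).card) = m →
      ((ball D u r).card : ℝ) * ((ball D v r).card : ℝ)
          * |avg a (ball D u r) - avg a (ball D v r)| ^ p
        ≤ 3 ^ p * 3 ^ p * 5 ^ p * r ^ p * (∑ x, en D p a x)
          * (((ball D u r).card : ℝ) + ((ball D v r).card : ℝ)) := by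
  intro m
  induction m using Nat.strong_induction_on with
  | _ m ih =>
    intro u v r hr huv hm
    have hp0 : 0 < p := by linarith
    set E := ∑ x, en D p a x with hE
    have hE0 : 0 ≤ E := Finset.sum_nonneg (fun x _ => en_nonneg D hD0 hpos p a x)
    set X : ℝ := 3 ^ p with hX
    set Y : ℝ := 5 ^ p with hY
    set ρ : ℝ := r ^ p with hρ
    have hX1 : 1 ≤ X := Real.one_le_rpow (by norm_num) hp0.le
    have hY0 : 0 < Y := Real.rpow_pos_of_pos (by norm_num) p
    have hρ0 : 0 < ρ := Real.rpow_pos_of_pos hr p
    have h3r : (3 * r) ^ p = X * ρ := Real.mul_rpow (by norm_num) hr.le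
    have h5r : (5 * r) ^ p = Y * ρ := Real.mul_rpow (by norm_num) hr.le
    set B := ball D u r with hB
    set B' := ball D v r with hB'
    have hBne : B.Nonempty := ⟨u, self_mem_ball D hD0 u r hr.le⟩
    have hB'ne : B'.Nonempty := ⟨v, self_mem_ball D hD0 v r hr.le⟩
    have hb : 0 < (B.card : ℝ) := ball_card_pos D hD0 u r hr.le
    have hb' : 0 < (B'.card : ℝ) := ball_card_pos D hD0 v r hr.le
    by_cases h1 : ((ball D u (4 * r)).card : ℝ) ≤ X * Y * ((B.card : ℝ) + (B'.card : ℝ))
    · -- slow growth at `u`
      have hj := avg_sub_avg_le a B B' hBne hB'ne p hp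
      have hc := cross_le D hD0 hsymm htri hpos p hp0 a u v r hr huv
      rw [h3r] at hc
      calc (B.card : ℝ) * (B'.card : ℝ) * |avg a B - avg a B'| ^ p
          ≤ ∑ w ∈ B, ∑ w' ∈ B', |a w - a w'| ^ p := hj
        _ ≤ ((ball D u (4 * r)).card : ℝ) * (X * ρ) * E := hc
        _ ≤ (X * Y * ((B.card : ℝ) + (B'.card : ℝ))) * (X * ρ) * E := by
            apply mul_le_mul_of_nonneg_right _ hE0
            apply mul_le_mul_of_nonneg_right h1 (by positivity)
        _ = X * X * Y * ρ * E * ((B.card : ℝ) + (B'.card : ℝ)) := by ring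
    · by_cases h2 : ((ball D v (4 * r)).card : ℝ) ≤ X * Y * ((B.card : ℝ) + (B'.card : ℝ))
      · -- slow growth at `v`
        have hj := avg_sub_avg_le a B' B hB'ne hBne p hp
        have hc := cross_le D hD0 hsymm htri hpos p hp0 a v u r hr (by rw [hsymm]; exact huv)
        rw [h3r] at hc
        rw [abs_sub_comm] at hj
        calc (B.card : ℝ) * (B'.card : ℝ) * |avg a B - avg a B'| ^ p
            = (B'.card : ℝ) * (B.card : ℝ) * |avg a B - avg a B'| ^ p := by ring
          _ ≤ ∑ w ∈ B', ∑ w' ∈ B, |a w - a w'| ^ p := hj
          _ ≤ ((ball D v (4 * r)).card : ℝ) * (X * ρ) * E := hc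
          _ ≤ (X * Y * ((B.card : ℝ) + (B'.card : ℝ))) * (X * ρ) * E := by
              apply mul_le_mul_of_nonneg_right _ hE0
              apply mul_le_mul_of_nonneg_right h2 (by positivity)
          _ = X * X * Y * ρ * E * ((B.card : ℝ) + (B'.card : ℝ)) := by ring
      · -- fast growth at both
        push Not at h1 h2
        have hbb : 0 < (B.card : ℝ) + (B'.card : ℝ) := by linarith
        have hXY : 1 ≤ X * Y := by
          have : 1 ≤ Y := Real.one_le_rpow (by norm_num) hp0.le
          nlinarith
        set Γ : ℝ := X * Y * ((B.card : ℝ) + (B'.card : ℝ)) with hΓ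
        have hΓ0 : 0 < Γ := by positivity
        have hΓbb : (B.card : ℝ) + (B'.card : ℝ) ≤ Γ := by
          rw [hΓ]
          nlinarith
        have h5 : 0 < 5 * r := by linarith
        -- pointwise bound
        have hpt : ∀ u' ∈ B, ∀ v' ∈ B', |a u' - a v'| ^ p
            ≤ X / 3 * (Y * ρ * en D p a u'
              + 2 * X * Y * ρ * E / ((B.card : ℝ) + (B'.card : ℝ)) + Y * ρ * en D p a v') := by
          intro u' hu' v' hv'
          rw [hB, mem_ball] at hu'
          rw [hB', mem_ball] at hv'
          have hsub1 : ball D u (4 * r) ⊆ ball D u' (5 * r) := by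
            intro x hx
            rw [mem_ball] at hx ⊢
            have := htri u' u x
            rw [hsymm u' u] at this
            linarith
          have hsub2 : ball D v (4 * r) ⊆ ball D v' (5 * r) := by
            intro x hx
            rw [mem_ball] at hx ⊢
            have := htri v' v x
            rw [hsymm v' v] at this
            linarith
          have hc1 : Γ < ((ball D u' (5 * r)).card : ℝ) := by
            refine lt_of_lt_of_le h1 ?_
            exact_mod_cast Finset.card_le_card hsub1
          have hc2 : Γ < ((ball D v' (5 * r)).card : ℝ) := by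
            refine lt_of_lt_of_le h2 ?_
            exact_mod_cast Finset.card_le_card hsub2
          have hu'v' : D u' v' ≤ 5 * r := by
            have h1 := htri u' u v'
            have h2 := htri u v v'
            rw [hsymm u' u] at h1
            linarith
          -- measure decreases
          have hlt : B.card + B'.card
              < (ball D u' (5 * r)).card + (ball D v' (5 * r)).card := by
            have : ((B.card + B'.card : ℕ) : ℝ)
                < (((ball D u' (5 * r)).card + (ball D v' (5 * r)).card : ℕ) : ℝ) := by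
              push_cast
              have := ball_card_pos D hD0 v' (5 * r) h5.le
              linarith
            exact_mod_cast this
          have hle1 : (ball D u' (5 * r)).card ≤ Fintype.card ι := Finset.card_le_univ _
          have hle2 : (ball D v' (5 * r)).card ≤ Fintype.card ι := Finset.card_le_univ _
          have hih := ih (2 * Fintype.card ι
            - ((ball D u' (5 * r)).card + (ball D v' (5 * r)).card)) (by omega) u' v' (5 * r) h5
            hu'v' rfl
          rw [h5r] at hih
          set c := ((ball D u' (5 * r)).card : ℝ) with hc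
          set c' := ((ball D v' (5 * r)).card : ℝ) with hc'
          have hc0 : 0 < c := by linarith
          have hc'0 : 0 < c' := by linarith
          set y := avg a (ball D u' (5 * r)) - avg a (ball D v' (5 * r)) with hy
          have hyb : |y| ^ p ≤ 2 * X * Y * ρ * E / ((B.card : ℝ) + (B'.card : ℝ)) := by
            have e1 : |y| ^ p ≤ X * X * Y * (Y * ρ) * E * (c + c') / (c * c') := by
              rw [le_div_iff₀ (by positivity)]
              linarith
            have e2 : (c + c') / (c * c') ≤ 2 / Γ := by
              have : (c + c') / (c * c') = 1 / c' + 1 / c := by field_simp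
              rw [this]
              have g1 : 1 / c' ≤ 1 / Γ := one_div_le_one_div_of_le hΓ0 hc2.le
              have g2 : 1 / c ≤ 1 / Γ := one_div_le_one_div_of_le hΓ0 hc1.le
              have : 2 / Γ = 1 / Γ + 1 / Γ := by ring
              linarith
            calc |y| ^ p ≤ X * X * Y * (Y * ρ) * E * (c + c') / (c * c') := e1
              _ = X * X * Y * (Y * ρ) * E * ((c + c') / (c * c')) := by ring
              _ ≤ X * X * Y * (Y * ρ) * E * (2 / Γ) := by
                  apply mul_le_mul_of_nonneg_left e2 (by positivity)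
              _ = 2 * X * Y * ρ * E / ((B.card : ℝ) + (B'.card : ℝ)) := by
                  rw [hΓ]
                  field_simp
          have hx := sub_avg_le D hD0 hpos p hp a u' (5 * r) h5
          have hz := sub_avg_le D hD0 hpos p hp a v' (5 * r) h5
          rw [h5r] at hx hz
          have hdecomp : a u' - a v' = (a u' - avg a (ball D u' (5 * r))) + y
              + (avg a (ball D v' (5 * r)) - a v') := by
            rw [hy]
            ring
          have h3t := three_term (a u' - avg a (ball D u' (5 * r))) y
            (avg a (ball D v' (5 * r)) - a v') p hp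
          rw [← hdecomp] at h3t
          have h3p : (3 : ℝ) ^ (p - 1) = X / 3 := by
            rw [Real.rpow_sub_one (by norm_num)]
          rw [h3p, abs_sub_comm (avg a (ball D v' (5 * r))) (a v')] at h3t
          refine le_trans h3t ?_
          apply mul_le_mul_of_nonneg_left _ (by positivity)
          linarith
        -- sum up
        have hsum : ∑ w ∈ B, ∑ w' ∈ B', |a w - a w'| ^ p
            ≤ X / 3 * (Y * ρ * ((B'.card : ℝ) * E)
              + (B.card : ℝ) * (B'.card : ℝ)
                * (2 * X * Y * ρ * E / ((B.card : ℝ) + (B'.card : ℝ)))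
              + Y * ρ * ((B.card : ℝ) * E)) := by
          have hEB : ∑ w ∈ B, en D p a w ≤ E :=
            Finset.sum_le_sum_of_subset_of_nonneg (Finset.subset_univ _)
              (fun x _ _ => en_nonneg D hD0 hpos p a x)
          have hEB' : ∑ w ∈ B', en D p a w ≤ E :=
            Finset.sum_le_sum_of_subset_of_nonneg (Finset.subset_univ _)
              (fun x _ _ => en_nonneg D hD0 hpos p a x)
          set t := 2 * X * Y * ρ * E / ((B.card : ℝ) + (B'.card : ℝ)) with ht
          calc ∑ w ∈ B, ∑ w' ∈ B', |a w - a w'| ^ p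
              ≤ ∑ w ∈ B, ∑ w' ∈ B', X / 3 * (Y * ρ * en D p a w + t + Y * ρ * en D p a w') :=
                Finset.sum_le_sum (fun w hw => Finset.sum_le_sum (fun w' hw' => hpt w hw w' hw'))
            _ = X / 3 * (Y * ρ * ((B'.card : ℝ) * ∑ w ∈ B, en D p a w)
                + (B.card : ℝ) * (B'.card : ℝ) * t
                + Y * ρ * ((B.card : ℝ) * ∑ w' ∈ B', en D p a w')) := by
                simp only [← Finset.mul_sum, Finset.sum_add_distrib, Finset.sum_const,
                  nsmul_eq_mul]
                ring
            _ ≤ _ := by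
                apply mul_le_mul_of_nonneg_left _ (by positivity)
                have g1 : Y * ρ * ((B'.card : ℝ) * ∑ w ∈ B, en D p a w)
                    ≤ Y * ρ * ((B'.card : ℝ) * E) := by
                  apply mul_le_mul_of_nonneg_left _ (by positivity)
                  exact mul_le_mul_of_nonneg_left hEB hb'.le
                have g2 : Y * ρ * ((B.card : ℝ) * ∑ w' ∈ B', en D p a w')
                    ≤ Y * ρ * ((B.card : ℝ) * E) := by
                  apply mul_le_mul_of_nonneg_left _ (by positivity)
                  exact mul_le_mul_of_nonneg_left hEB' hb.le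
                linarith
        have hj := avg_sub_avg_le a B B' hBne hB'ne p hp
        exact le_trans hj (case_two_arith X Y ρ E _ _ _ hX1 hY0.le hρ0.le hE0 hb hb' hsum)

end Vale.Agent.P249
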