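import Mathlib

/-!
# P249: nested nets of a finite metric space
-/

namespace Vale.Agent.P249

open Finset

variable {ι : Type*}

theorem exists_net (D : ι → ι → ℝ) (S : Finset ι) (r : ℝ) :
    ∃ T : Finset ι, T ⊆ S ∧ (∀ u ∈ T, ∀ v ∈ T, u ≠ v → r < D u v ∧ r < D v u) ∧
      (∀ x ∈ S, x ∈ T ∨ ∃ u ∈ T, D x u ≤ r ∨ D u x ≤ r) := by
  classical
  induction S using Finset.induction_on with
  | empty => exact ⟨∅, by simp, by simp, by simp⟩
  | insert x S hx ih =>
    obtain ⟨T, hTS, hsep, hcov⟩ := ih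
    by_cases h : ∃ u ∈ T, D x u ≤ r ∨ D u x ≤ r
    · refine ⟨T, hTS.trans (Finset.subset_insert _ _), hsep, ?_⟩
      intro z hz
      rw [Finset.mem_insert] at hz
      rcases hz with rfl | hz
      · exact Or.inr h
      · exact hcov z hz
    · push Not at h
      refine ⟨insert x T, Finset.insert_subset_insert _ hTS, ?_, ?_⟩
      · intro u hu v hv huv
        rw [Finset.mem_insert] at hu hv
        rcases hu with rfl | hu
        · rcases hv with rfl | hv
          · exact absurd rfl huv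
          · exact h v hv
        · rcases hv with rfl | hv
          · exact (h u hu).symm
          · exact hsep u hu v hv huv
      · intro z hz
        rw [Finset.mem_insert] at hz
        rcases hz with rfl | hz
        · exact Or.inl (Finset.mem_insert_self _ _)
        · rcases hcov z hz with h1 | ⟨u, hu, h2⟩
          · exact Or.inl (Finset.mem_insert_of_mem h1)
          · exact Or.inr ⟨u, Finset.mem_insert_of_mem hu, h2⟩

/-- nested nets: level `s` is separated at scale `2^s δ` -/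
noncomputable def netSeq [Fintype ι] (D : ι → ι → ℝ) (δ : ℝ) : ℕ → Finset ι
  | 0 => Finset.univ
  | (s + 1) => Classical.choose (exists_net D (netSeq D δ s) (2 ^ (s + 1) * δ))

variable [Fintype ι]

theorem netSeq_succ_subset (D : ι → ι → ℝ) (δ : ℝ) (s : ℕ) :
    netSeq D δ (s + 1) ⊆ netSeq D δ s :=
  (Classical.choose_spec (exists_net D (netSeq D δ s) (2 ^ (s + 1) * δ))).1

theorem netSeq_add_subset (D : ι → ι → ℝ) (δ : ℝ) (s k : ℕ) :
    netSeq D δ (s + k) ⊆ netSeq D δ s := by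
  induction k with
  | zero => exact Finset.Subset.refl _
  | succ k ih => exact (netSeq_succ_subset D δ (s + k)).trans ih

theorem netSeq_sep (D : ι → ι → ℝ) (δ : ℝ) (hδ : ∀ u v, u ≠ v → δ < D u v) (s : ℕ) :
    ∀ u ∈ netSeq D δ s, ∀ v ∈ netSeq D δ s, u ≠ v → 2 ^ s * δ < D u v := by
  cases s with
  | zero =>
    intro u _ v _ huv
    simpa using hδ u v huv
  | succ s =>
    intro u hu v hv huv
    exact ((Classical.choose_spec (exists_net D (netSeq D δ s) (2 ^ (s + 1) * δ))).2.1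
      u hu v hv huv).1

theorem netSeq_cover_step (D : ι → ι → ℝ) (hD0 : ∀ u, D u u = 0) (hsymm : ∀ u v, D u v = D v u)
    (δ : ℝ) (hδ0 : 0 < δ) (s : ℕ) :
    ∀ x ∈ netSeq D δ s, ∃ u ∈ netSeq D δ (s + 1), D x u ≤ 2 ^ (s + 1) * δ := by
  intro x hx
  rcases (Classical.choose_spec (exists_net D (netSeq D δ s) (2 ^ (s + 1) * δ))).2.2 x hx with
    h | ⟨u, hu, h⟩
  · exact ⟨x, h, by rw [hD0]; positivity⟩
  · refine ⟨u, hu, ?_⟩
    rcases h with h | h
    · exact h
    · rw [hsymm]; exact h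

theorem netSeq_cover (D : ι → ι → ℝ) (hD0 : ∀ u, D u u = 0) (hsymm : ∀ u v, D u v = D v u)
    (htri : ∀ u v w, D u w ≤ D u v + D v w) (δ : ℝ) (hδ0 : 0 < δ) (s : ℕ) (x : ι) :
    ∃ u ∈ netSeq D δ s, D x u ≤ 2 * (2 ^ s * δ) - 2 * δ := by
  induction s with
  | zero => exact ⟨x, Finset.mem_univ x, by rw [hD0]; simp⟩
  | succ s ih =>
    obtain ⟨u, hu, hxu⟩ := ih
    obtain ⟨w, hw, huw⟩ := netSeq_cover_step D hD0 hsymm δ hδ0 s u hu
    refine ⟨w, hw, ?_⟩
    have := htri x u w
    have e : (2 : ℝ) ^ (s + 1) = 2 * 2 ^ s := by ring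
    rw [e] at huw ⊢
    linarith

end Vale.Agent.P249
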