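import Mathlib
import Vale.Agent.P249.Nets

/-!
# P249: counting the active net points over all levels
-/

namespace Vale.Agent.P249

open Finset

variable {ι : Type*}

/-- points of `N` having another point of `N` within distance `R` -/
noncomputable def act (N : Finset ι) (D : ι → ι → ℝ) (R : ℝ) : Finset ι :=
  open Classical in N.filter (fun u => ∃ v ∈ N, v ≠ u ∧ D u v ≤ R)

theorem mem_act {N : Finset ι} {D : ι → ι → ℝ} {R : ℝ} {u : ι} :
    u ∈ act N D R ↔ u ∈ N ∧ ∃ v ∈ N, v ≠ u ∧ D u v ≤ R := by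
  simp [act]

theorem act_card_le (N N' : Finset ι) (hN : N' ⊆ N) (D : ι → ι → ℝ) (hnn : ∀ u v, 0 ≤ D u v)
    (hsymm : ∀ u v, D u v = D v u) (htri : ∀ u v w, D u w ≤ D u v + D v w) (R : ℝ)
    (hsep : ∀ u ∈ N', ∀ v ∈ N', u ≠ v → 2 * R < D u v) :
    (act N D R).card + 2 * N'.card ≤ 2 * N.card := by
  classical
  set A := act N D R with hA
  have hAN : A ⊆ N := Finset.filter_subset _ _
  have hsd : (N \ N').card = N.card - N'.card := Finset.card_sdiff_of_subset hN
  have hle : N'.card ≤ N.card := Finset.card_le_card hN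
  have h1 : (A \ N').card ≤ (N \ N').card := Finset.card_le_card (Finset.sdiff_subset_sdiff hAN le_rfl)
  set f : ι → ι := fun u => if h : ∃ v ∈ N, v ≠ u ∧ D u v ≤ R then h.choose else u with hf
  have hfspec : ∀ u ∈ A, f u ∈ N ∧ f u ≠ u ∧ D u (f u) ≤ R := by
    intro u hu
    rw [hA, mem_act] at hu
    have h := hu.2
    simp only [hf, dif_pos h]
    exact h.choose_spec
  have h2 : (A ∩ N').card ≤ (N \ N').card := by
    apply Finset.card_le_card_of_injOn f
    · intro u hu
      rw [Finset.mem_coe, Finset.mem_inter] at hu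
      obtain ⟨g1, g2, g3⟩ := hfspec u hu.1
      rw [Finset.mem_coe, Finset.mem_sdiff]
      refine ⟨g1, ?_⟩
      intro hfu
      have := hsep u hu.2 (f u) hfu (Ne.symm g2)
      have h0 := hnn u (f u)
      linarith
    · intro u hu u' hu' heq
      rw [Finset.mem_coe, Finset.mem_inter] at hu hu'
      by_contra hne
      obtain ⟨_, _, g3⟩ := hfspec u hu.1
      obtain ⟨_, _, g3'⟩ := hfspec u' hu'.1
      have := hsep u hu.2 u' hu'.2 hne
      have ht := htri u (f u) u'
      rw [hsymm (f u) u', heq] at ht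
      rw [heq] at g3
      linarith
  have h3 : A.card = (A \ N').card + (A ∩ N').card := by
    rw [add_comm]
    exact (Finset.card_inter_add_card_sdiff A N').symm
  omega

theorem telescope (c : ℕ → ℝ) (L S : ℕ) :
    ∑ s ∈ range S, (c s - c (s + L)) = ∑ s ∈ range L, c s - ∑ s ∈ range L, c (S + s) := by
  induction S with
  | zero => simp
  | succ S ih =>
    rw [Finset.sum_range_succ, ih]
    have h1 : ∑ s ∈ range L, c (S + s) + c (S + L) = ∑ s ∈ range (L + 1), c (S + s) :=
      (Finset.sum_range_succ (fun s => c (S + s)) L).symm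
    have h2 : ∑ s ∈ range (L + 1), c (S + s) = ∑ s ∈ range L, c (S + (s + 1)) + c (S + 0) :=
      Finset.sum_range_succ' (fun s => c (S + s)) L
    have h3 : ∑ s ∈ range L, c (S + (s + 1)) = ∑ s ∈ range L, c (S + 1 + s) := by
      apply Finset.sum_congr rfl
      intro s _
      congr 1
      ring
    rw [add_zero] at h2
    linarith

theorem telescope_le (c : ℕ → ℝ) (n : ℝ) (h0 : ∀ s, 0 ≤ c s) (hn : ∀ s, c s ≤ n) (L S : ℕ) :
    ∑ s ∈ range S, (c s - c (s + L)) ≤ L * n := by
  rw [telescope]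
  have h1 : ∑ s ∈ range L, c s ≤ ∑ _s ∈ range L, n := Finset.sum_le_sum (fun s _ => hn s)
  have h2 : 0 ≤ ∑ s ∈ range L, c (S + s) := Finset.sum_nonneg (fun s _ => h0 _)
  rw [Finset.sum_const, Finset.card_range, nsmul_eq_mul] at h1
  linarith

theorem total_act [Fintype ι] (D : ι → ι → ℝ) (hnn : ∀ u v, 0 ≤ D u v)
    (hsymm : ∀ u v, D u v = D v u) (htri : ∀ u v w, D u w ≤ D u v + D v w)
    (δ : ℝ) (hδ : ∀ u v, u ≠ v → δ < D u v) (S i : ℕ) :
    ∑ s ∈ range S, ((act (netSeq D δ s) D (2 ^ i * (32 * (2 ^ s * δ)))).card : ℝ)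
      ≤ 2 * (((i + 6 : ℕ) : ℝ) * (Fintype.card ι : ℝ)) := by
  set c : ℕ → ℝ := fun s => ((netSeq D δ s).card : ℝ) with hc
  have hstep : ∀ s ∈ range S, ((act (netSeq D δ s) D (2 ^ i * (32 * (2 ^ s * δ)))).card : ℝ)
      ≤ 2 * (c s - c (s + (i + 6))) := by
    intro s _
    have h := act_card_le (netSeq D δ s) (netSeq D δ (s + (i + 6))) (netSeq_add_subset D δ s (i + 6))
      D hnn hsymm htri (2 ^ i * (32 * (2 ^ s * δ))) (by
        intro u hu v hv huv
        have := netSeq_sep D δ hδ (s + (i + 6)) u hu v hv huv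
        have e : (2 : ℝ) ^ (s + (i + 6)) * δ = 2 * (2 ^ i * (32 * (2 ^ s * δ))) := by
          rw [pow_add, pow_add]
          ring
        rw [← e]
        exact this)
    have h' : ((act (netSeq D δ s) D (2 ^ i * (32 * (2 ^ s * δ)))).card : ℝ)
        + 2 * ((netSeq D δ (s + (i + 6))).card : ℝ) ≤ 2 * ((netSeq D δ s).card : ℝ) := by
      exact_mod_cast h
    simp only [hc]
    linarith
  calc ∑ s ∈ range S, ((act (netSeq D δ s) D (2 ^ i * (32 * (2 ^ s * δ)))).card : ℝ)
      ≤ ∑ s ∈ range S, 2 * (c s - c (s + (i + 6))) := Finset.sum_le_sum hstep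
    _ = 2 * ∑ s ∈ range S, (c s - c (s + (i + 6))) := by rw [Finset.mul_sum]
    _ ≤ 2 * (((i + 6 : ℕ) : ℝ) * (Fintype.card ι : ℝ)) := by
        apply mul_le_mul_of_nonneg_left _ (by norm_num)
        apply telescope_le c _ (fun s => Nat.cast_nonneg _)
        intro s
        simp only [hc]
        exact_mod_cast Finset.card_le_univ _

theorem geom_sum_le (J : ℕ) :
    ∑ i ∈ range J, (1 / 2 : ℝ) ^ i * ((i + 6 : ℕ) : ℝ) ≤ 14 := by
  have key : ∀ J : ℕ, ∑ i ∈ range J, (1 / 2 : ℝ) ^ i * ((i + 6 : ℕ) : ℝ)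
      = 14 - ((J : ℝ) + 7) * 2 * (1 / 2 : ℝ) ^ J := by
    intro J
    induction J with
    | zero => norm_num
    | succ J ih =>
      rw [Finset.sum_range_succ, ih, pow_succ]
      push_cast
      ring
  rw [key]
  have : 0 ≤ ((J : ℝ) + 7) * 2 * (1 / 2 : ℝ) ^ J := by positivity
  linarith

end Vale.Agent.P249
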