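import Mathlib
import Vale.Agent.P249.Key2

/-!
# P249: one level of the multi-scale inequality (flat weights with geometric decay)
-/

namespace Vale.Agent.P249

open Finset

variable {ι : Type*}

/-- ball inside a finset -/
noncomputable def bal (N : Finset ι) (D : ι → ι → ℝ) (u : ι) (r : ℝ) : Finset ι :=
  N.filter (fun l => D u l ≤ r)

/-- flat energy of `a` at the point `u` and radius `r`, inside `N` -/
noncomputable def fl (N : Finset ι) (D : ι → ι → ℝ) (p : ℝ) (a : ι → ℝ) (r : ℝ) (u : ι) : ℝ :=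
  (∑ v ∈ bal N D u r, |a u - a v| ^ p) / (((bal N D u r).card : ℝ) * r ^ p)

/-- level energy: flat energies at the radii `2^i r0`, damped by `2^{-i}` -/
noncomputable def lev (N : Finset ι) (D : ι → ι → ℝ) (p : ℝ) (a : ι → ℝ) (r0 : ℝ) (J : ℕ) : ℝ :=
  ∑ i ∈ range J, (1 / 2 : ℝ) ^ i * ∑ u ∈ N, fl N D p a (2 ^ i * r0) u

theorem mem_bal {N : Finset ι} {D : ι → ι → ℝ} {u l : ι} {r : ℝ} :
    l ∈ bal N D u r ↔ l ∈ N ∧ D u l ≤ r := by
  simp [bal]

theorem bal_subset (N : Finset ι) (D : ι → ι → ℝ) (u : ι) (r : ℝ) : bal N D u r ⊆ N :=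
  Finset.filter_subset _ _

theorem self_mem_bal (N : Finset ι) (D : ι → ι → ℝ) (hD0 : ∀ u, D u u = 0) (u : ι) (hu : u ∈ N)
    (r : ℝ) (hr : 0 ≤ r) : u ∈ bal N D u r := by
  rw [mem_bal, hD0]
  exact ⟨hu, hr⟩

theorem bal_card_pos (N : Finset ι) (D : ι → ι → ℝ) (hD0 : ∀ u, D u u = 0) (u : ι) (hu : u ∈ N)
    (r : ℝ) (hr : 0 ≤ r) : 0 < ((bal N D u r).card : ℝ) := by
  exact_mod_cast Finset.card_pos.2 ⟨u, self_mem_bal N D hD0 u hu r hr⟩

theorem fl_nonneg (N : Finset ι) (D : ι → ι → ℝ) (p : ℝ) (a : ι → ℝ) (r : ℝ) (hr : 0 ≤ r) (u : ι) :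
    0 ≤ fl N D p a r u := by
  unfold fl
  apply div_nonneg
  · exact Finset.sum_nonneg (fun v _ => Real.rpow_nonneg (abs_nonneg _) _)
  · exact mul_nonneg (Nat.cast_nonneg _) (Real.rpow_nonneg hr _)

theorem lev_nonneg (N : Finset ι) (D : ι → ι → ℝ) (p : ℝ) (a : ι → ℝ) (r0 : ℝ) (hr : 0 ≤ r0)
    (J : ℕ) : 0 ≤ lev N D p a r0 J := by
  unfold lev
  apply Finset.sum_nonneg
  intro i _
  apply mul_nonneg (by positivity)
  exact Finset.sum_nonneg (fun u _ => fl_nonneg N D p a _ (by positivity) u)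

/-- the sum of the flat energies at one radius is controlled by the level energy -/
theorem sum_fl_le (N : Finset ι) (D : ι → ι → ℝ) (p : ℝ) (a : ι → ℝ) (r0 : ℝ) (hr : 0 ≤ r0)
    (J i : ℕ) (hi : i < J) (B : Finset ι) (hB : B ⊆ N) :
    ∑ u ∈ B, fl N D p a (2 ^ i * r0) u ≤ 2 ^ i * lev N D p a r0 J := by
  have h1 : ∑ u ∈ B, fl N D p a (2 ^ i * r0) u ≤ ∑ u ∈ N, fl N D p a (2 ^ i * r0) u :=
    Finset.sum_le_sum_of_subset_of_nonneg hB
      (fun u _ _ => fl_nonneg N D p a _ (by positivity) u)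
  have h2 : (1 / 2 : ℝ) ^ i * ∑ u ∈ N, fl N D p a (2 ^ i * r0) u ≤ lev N D p a r0 J := by
    unfold lev
    exact Finset.single_le_sum
      (f := fun i => (1 / 2 : ℝ) ^ i * ∑ u ∈ N, fl N D p a (2 ^ i * r0) u)
      (fun k _ => mul_nonneg (by positivity)
        (Finset.sum_nonneg (fun u _ => fl_nonneg N D p a _ (by positivity) u)))
      (Finset.mem_range.2 hi)
  have h3 : ∑ u ∈ N, fl N D p a (2 ^ i * r0) u
      = 2 ^ i * ((1 / 2 : ℝ) ^ i * ∑ u ∈ N, fl N D p a (2 ^ i * r0) u) := by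
    rw [← mul_assoc, ← mul_pow]
    norm_num
  calc ∑ u ∈ B, fl N D p a (2 ^ i * r0) u ≤ ∑ u ∈ N, fl N D p a (2 ^ i * r0) u := h1
    _ = 2 ^ i * ((1 / 2 : ℝ) ^ i * ∑ u ∈ N, fl N D p a (2 ^ i * r0) u) := h3
    _ ≤ 2 ^ i * lev N D p a r0 J := mul_le_mul_of_nonneg_left h2 (by positivity)

theorem sum_bal_eq (N : Finset ι) (D : ι → ι → ℝ) (hD0 : ∀ u, D u u = 0) (p : ℝ) (a : ι → ℝ)
    (r : ℝ) (hr : 0 < r) (u : ι) (hu : u ∈ N) :
    ∑ v ∈ bal N D u r, |a u - a v| ^ p = ((bal N D u r).card : ℝ) * r ^ p * fl N D p a r u := by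
  have hc := bal_card_pos N D hD0 u hu r hr.le
  have hrp : 0 < r ^ p := Real.rpow_pos_of_pos hr p
  unfold fl
  field_simp

theorem sub_avg_le' (N : Finset ι) (D : ι → ι → ℝ) (hD0 : ∀ u, D u u = 0) (p : ℝ) (hp : 1 ≤ p)
    (a : ι → ℝ) (r : ℝ) (hr : 0 < r) (u : ι) (hu : u ∈ N) :
    |a u - avg a (bal N D u r)| ^ p ≤ r ^ p * fl N D p a r u := by
  have hc := bal_card_pos N D hD0 u hu r hr.le
  have hne : (bal N D u r).Nonempty := ⟨u, self_mem_bal N D hD0 u hu r hr.le⟩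
  have h1 : a u - avg a (bal N D u r)
      = (∑ v ∈ bal N D u r, (a u - a v)) / ((bal N D u r).card : ℝ) := by
    unfold avg
    rw [Finset.sum_sub_distrib, Finset.sum_const, nsmul_eq_mul]
    field_simp
  rw [h1]
  refine le_trans (jensen_avg _ hne _ p hp) ?_
  rw [div_le_iff₀ hc, sum_bal_eq N D hD0 p a r hr u hu]
  exact le_of_eq (by ring)

/-- `(2^i r0)^p 2^i = (2 * 2^p)^i r0^p` -/
theorem radius_pow (p r0 : ℝ) (hr : 0 ≤ r0) (i : ℕ) :
    (2 ^ i * r0) ^ p * 2 ^ i = (2 * 2 ^ p) ^ i * r0 ^ p := by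
  rw [Real.mul_rpow (by positivity) hr, mul_pow, ← Real.rpow_natCast 2 i, ← Real.rpow_mul (by norm_num),
    ← Real.rpow_natCast (2 ^ p) i, ← Real.rpow_mul (by norm_num), mul_comm (i : ℝ) p]
  ring

theorem cross_le' (N : Finset ι) (D : ι → ι → ℝ) (hD0 : ∀ u, D u u = 0)
    (hsymm : ∀ u v, D u v = D v u) (htri : ∀ u v w, D u w ≤ D u v + D v w)
    (p : ℝ) (a : ι → ℝ) (r0 : ℝ) (hr0 : 0 < r0) (J i : ℕ) (hi : i + 2 < J)
    (u v : ι) (huv : D u v ≤ 2 ^ i * r0) :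
    ∑ w ∈ bal N D u (2 ^ i * r0), ∑ w' ∈ bal N D v (2 ^ i * r0), |a w - a w'| ^ p
      ≤ ((bal N D u (5 * (2 ^ i * r0))).card : ℝ) * ((2 * 2 ^ p) ^ (i + 2) * r0 ^ p)
        * lev N D p a r0 J := by
  set r := 2 ^ i * r0 with hr
  have hrpos : 0 < r := by positivity
  have h4 : 2 ^ (i + 2) * r0 = 4 * r := by
    rw [hr, pow_add]
    ring
  set M := ((bal N D u (5 * r)).card : ℝ) with hM
  have hE0 := lev_nonneg N D p a r0 hr0.le J
  have hstep : ∀ w ∈ bal N D u r, ∑ w' ∈ bal N D v r, |a w - a w'| ^ p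
      ≤ M * (4 * r) ^ p * fl N D p a (4 * r) w := by
    intro w hw
    rw [mem_bal] at hw
    have hsub : bal N D v r ⊆ bal N D w (4 * r) := by
      intro x hx
      rw [mem_bal] at hx ⊢
      refine ⟨hx.1, ?_⟩
      have h1 := htri w u x
      have h2 := htri u v x
      rw [hsymm w u] at h1
      linarith [hw.2, hx.2]
    have hsub2 : bal N D w (4 * r) ⊆ bal N D u (5 * r) := by
      intro x hx
      rw [mem_bal] at hx ⊢
      refine ⟨hx.1, ?_⟩
      have h1 := htri u w x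
      linarith [hw.2, hx.2]
    have hcard : ((bal N D w (4 * r)).card : ℝ) ≤ M := by
      rw [hM]
      exact_mod_cast Finset.card_le_card hsub2
    calc ∑ w' ∈ bal N D v r, |a w - a w'| ^ p
        ≤ ∑ w' ∈ bal N D w (4 * r), |a w - a w'| ^ p :=
          Finset.sum_le_sum_of_subset_of_nonneg hsub
            (fun x _ _ => Real.rpow_nonneg (abs_nonneg _) _)
      _ = ((bal N D w (4 * r)).card : ℝ) * (4 * r) ^ p * fl N D p a (4 * r) w :=
          sum_bal_eq N D hD0 p a (4 * r) (by positivity) w hw.1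
      _ ≤ M * (4 * r) ^ p * fl N D p a (4 * r) w := by
          apply mul_le_mul_of_nonneg_right _ (fl_nonneg N D p a _ (by positivity) w)
          apply mul_le_mul_of_nonneg_right hcard (Real.rpow_nonneg (by positivity) _)
  have hsum := sum_fl_le N D p a r0 hr0.le J (i + 2) hi (bal N D u r) (bal_subset N D u r)
  rw [h4] at hsum
  have hrad := radius_pow p r0 hr0.le (i + 2)
  rw [h4] at hrad
  have hM0 : 0 ≤ M := Nat.cast_nonneg _
  calc ∑ w ∈ bal N D u r, ∑ w' ∈ bal N D v r, |a w - a w'| ^ p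
      ≤ ∑ w ∈ bal N D u r, M * (4 * r) ^ p * fl N D p a (4 * r) w := Finset.sum_le_sum hstep
    _ = M * (4 * r) ^ p * ∑ w ∈ bal N D u r, fl N D p a (4 * r) w := by rw [Finset.mul_sum]
    _ ≤ M * (4 * r) ^ p * (2 ^ (i + 2) * lev N D p a r0 J) := by
        apply mul_le_mul_of_nonneg_left hsum
        exact mul_nonneg hM0 (Real.rpow_nonneg (by positivity) _)
    _ = M * ((4 * r) ^ p * 2 ^ (i + 2)) * lev N D p a r0 J := by ring
    _ = M * ((2 * 2 ^ p) ^ (i + 2) * r0 ^ p) * lev N D p a r0 J := by rw [hrad]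

end Vale.Agent.P249
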