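import Mathlib
import Vale.Agent.P249.Level

/-!
# P249: induction on ball sizes inside one level
-/

namespace Vale.Agent.P249

open Finset

variable {ι : Type*} [Fintype ι]

theorem fast_arith (X Z W ρ E b b' S : ℝ) (hX : 1 ≤ X) (hZ : 1 ≤ Z) (hW : 0 ≤ W) (hρ : 0 ≤ ρ)
    (hE : 0 ≤ E) (hb : 0 < b) (hb' : 0 < b')
    (hS : S ≤ X / 3 * (W * Z ^ 3 * ρ * (b' * E) + b * b' * (2 * (W * Z ^ 5) * ρ * E / (b + b'))
      + W * Z ^ 3 * ρ * (b * E))) :
    S ≤ X * (W * Z ^ 5) * ρ * E * (b + b') := by
  have hbb : 0 < b + b' := by linarith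
  have h1 : b * b' / (b + b') ≤ (b + b') / 4 := by
    rw [div_le_div_iff₀ hbb (by norm_num)]
    nlinarith [sq_nonneg (b - b')]
  have h2 : b * b' * (2 * (W * Z ^ 5) * ρ * E / (b + b'))
      = 2 * (W * Z ^ 5) * ρ * E * (b * b' / (b + b')) := by
    field_simp
  have hc : 0 ≤ 2 * (W * Z ^ 5) * ρ * E := by positivity
  have h3 : b * b' * (2 * (W * Z ^ 5) * ρ * E / (b + b'))
      ≤ 2 * (W * Z ^ 5) * ρ * E * ((b + b') / 4) := by
    rw [h2]
    exact mul_le_mul_of_nonneg_left h1 hc
  have hZ35 : Z ^ 3 ≤ Z ^ 5 := pow_le_pow_right₀ hZ (by norm_num)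
  have h5 : W * Z ^ 3 * ρ * (b' * E) ≤ W * Z ^ 5 * ρ * (b' * E) := by
    apply mul_le_mul_of_nonneg_right _ (by positivity)
    apply mul_le_mul_of_nonneg_right _ hρ
    exact mul_le_mul_of_nonneg_left hZ35 hW
  have h6 : W * Z ^ 3 * ρ * (b * E) ≤ W * Z ^ 5 * ρ * (b * E) := by
    apply mul_le_mul_of_nonneg_right _ (by positivity)
    apply mul_le_mul_of_nonneg_right _ hρ
    exact mul_le_mul_of_nonneg_left hZ35 hW
  have h7 : 0 ≤ (W * Z ^ 5) * ρ * E * (b + b') := by positivity
  calc S ≤ _ := hS
    _ ≤ X / 3 * (W * Z ^ 5 * ρ * (b' * E) + 2 * (W * Z ^ 5) * ρ * E * ((b + b') / 4)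
        + W * Z ^ 5 * ρ * (b * E)) := by
        apply mul_le_mul_of_nonneg_left _ (by positivity)
        linarith
    _ = ((W * Z ^ 5) * ρ * E * (b + b')) * (X / 2) := by ring
    _ ≤ ((W * Z ^ 5) * ρ * E * (b + b')) * X := by
        apply mul_le_mul_of_nonneg_left _ h7
        linarith
    _ = X * (W * Z ^ 5) * ρ * E * (b + b') := by ring

theorem config_bound' (N : Finset ι) (D : ι → ι → ℝ) (hD0 : ∀ u, D u u = 0)
    (hsymm : ∀ u v, D u v = D v u) (htri : ∀ u v w, D u w ≤ D u v + D v w)
    (p : ℝ) (hp : 1 ≤ p) (a : ι → ℝ) (r0 : ℝ) (hr0 : 0 < r0) (J : ℕ) (hJ : 6 * N.card ≤ J) :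
    ∀ (m j : ℕ) (u v : ι), u ∈ N → v ∈ N → D u v ≤ 2 ^ (3 * j) * r0 →
      j + 2 ≤ (bal N D u (2 ^ (3 * j) * r0)).card + (bal N D v (2 ^ (3 * j) * r0)).card →
      2 * N.card - ((bal N D u (2 ^ (3 * j) * r0)).card
        + (bal N D v (2 ^ (3 * j) * r0)).card) = m →
      ((bal N D u (2 ^ (3 * j) * r0)).card : ℝ) * ((bal N D v (2 ^ (3 * j) * r0)).card : ℝ)
          * |avg a (bal N D u (2 ^ (3 * j) * r0)) - avg a (bal N D v (2 ^ (3 * j) * r0))| ^ p
        ≤ 3 ^ p * ((2 * 2 ^ p) ^ (3 * j) * (2 * 2 ^ p) ^ 5) * r0 ^ p * lev N D p a r0 J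
          * (((bal N D u (2 ^ (3 * j) * r0)).card : ℝ)
            + ((bal N D v (2 ^ (3 * j) * r0)).card : ℝ)) := by
  intro m
  induction m using Nat.strong_induction_on with
  | _ m ih =>
    intro j u v hu hv huv hj hm
    have hp0 : 0 < p := by linarith
    set E := lev N D p a r0 J with hE
    have hE0 : 0 ≤ E := lev_nonneg N D p a r0 hr0.le J
    set X : ℝ := 3 ^ p with hX
    set Z : ℝ := 2 * 2 ^ p with hZ
    set W : ℝ := Z ^ (3 * j) with hW
    set ρ : ℝ := r0 ^ p with hρ
    set r : ℝ := 2 ^ (3 * j) * r0 with hr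
    have hrpos : 0 < r := by positivity
    have hX1 : 1 ≤ X := Real.one_le_rpow (by norm_num) hp0.le
    have hZ1 : 1 ≤ Z := by
      have : (1 : ℝ) ≤ 2 ^ p := Real.one_le_rpow (by norm_num) hp0.le
      rw [hZ]
      linarith
    have hZ0 : 0 < Z := by linarith
    have hW0 : 0 < W := by positivity
    have hρ0 : 0 < ρ := Real.rpow_pos_of_pos hr0 p
    set B := bal N D u r with hB
    set B' := bal N D v r with hB'
    have hBne : B.Nonempty := ⟨u, self_mem_bal N D hD0 u hu r hrpos.le⟩
    have hB'ne : B'.Nonempty := ⟨v, self_mem_bal N D hD0 v hv r hrpos.le⟩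
    have hb : 0 < (B.card : ℝ) := bal_card_pos N D hD0 u hu r hrpos.le
    have hb' : 0 < (B'.card : ℝ) := bal_card_pos N D hD0 v hv r hrpos.le
    have hBN : B.card ≤ N.card := Finset.card_le_card (bal_subset N D u r)
    have hB'N : B'.card ≤ N.card := Finset.card_le_card (bal_subset N D v r)
    have hidx : 3 * j + 3 < J := by omega
    have hpow2 : Z ^ (3 * j + 2) = W * Z ^ 2 := by rw [hW, pow_add]
    have hpow3 : Z ^ (3 * j + 3) = W * Z ^ 3 := by rw [hW, pow_add]
    by_cases h1 : ((bal N D u (5 * r)).card : ℝ) ≤ X * Z ^ 3 * ((B.card : ℝ) + (B'.card : ℝ))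
    · -- slow growth at `u`
      have hj' := avg_sub_avg_le a B B' hBne hB'ne p hp
      have hc := cross_le' N D hD0 hsymm htri p a r0 hr0 J (3 * j) (by omega) u v huv
      rw [← hZ, hpow2, ← hr, ← hE, ← hρ] at hc
      calc (B.card : ℝ) * (B'.card : ℝ) * |avg a B - avg a B'| ^ p
          ≤ ∑ w ∈ B, ∑ w' ∈ B', |a w - a w'| ^ p := hj'
        _ ≤ ((bal N D u (5 * r)).card : ℝ) * (W * Z ^ 2 * ρ) * E := hc
        _ ≤ (X * Z ^ 3 * ((B.card : ℝ) + (B'.card : ℝ))) * (W * Z ^ 2 * ρ) * E := by
            apply mul_le_mul_of_nonneg_right _ hE0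
            apply mul_le_mul_of_nonneg_right h1 (by positivity)
        _ = X * (W * Z ^ 5) * ρ * E * ((B.card : ℝ) + (B'.card : ℝ)) := by ring
    · by_cases h2 : ((bal N D v (5 * r)).card : ℝ) ≤ X * Z ^ 3 * ((B.card : ℝ) + (B'.card : ℝ))
      · -- slow growth at `v`
        have hj' := avg_sub_avg_le a B' B hB'ne hBne p hp
        have hc := cross_le' N D hD0 hsymm htri p a r0 hr0 J (3 * j) (by omega) v u
          (by rw [hsymm]; exact huv)
        rw [← hZ, hpow2, ← hr, ← hE, ← hρ] at hc
        rw [abs_sub_comm] at hj'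
        calc (B.card : ℝ) * (B'.card : ℝ) * |avg a B - avg a B'| ^ p
            = (B'.card : ℝ) * (B.card : ℝ) * |avg a B - avg a B'| ^ p := by ring
          _ ≤ ∑ w ∈ B', ∑ w' ∈ B, |a w - a w'| ^ p := hj'
          _ ≤ ((bal N D v (5 * r)).card : ℝ) * (W * Z ^ 2 * ρ) * E := hc
          _ ≤ (X * Z ^ 3 * ((B.card : ℝ) + (B'.card : ℝ))) * (W * Z ^ 2 * ρ) * E := by
              apply mul_le_mul_of_nonneg_right _ hE0
              apply mul_le_mul_of_nonneg_right h2 (by positivity)
          _ = X * (W * Z ^ 5) * ρ * E * ((B.card : ℝ) + (B'.card : ℝ)) := by ring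
      · -- fast growth at both
        push Not at h1 h2
        have hbb : 0 < (B.card : ℝ) + (B'.card : ℝ) := by linarith
        have hXZ : 1 ≤ X * Z ^ 3 := by
          have : 1 ≤ Z ^ 3 := one_le_pow₀ hZ1
          nlinarith
        set Γ : ℝ := X * Z ^ 3 * ((B.card : ℝ) + (B'.card : ℝ)) with hΓ
        have hΓ0 : 0 < Γ := by positivity
        have hΓbb : (B.card : ℝ) + (B'.card : ℝ) ≤ Γ := by
          rw [hΓ]
          nlinarith
        have h8 : 2 ^ (3 * (j + 1)) * r0 = 8 * r := by
          rw [hr, mul_add, pow_add]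
          ring
        have h8pos : 0 < 8 * r := by linarith
        have hrad := radius_pow p r0 hr0.le (3 * j + 3)
        have h8' : 2 ^ (3 * j + 3) * r0 = 8 * r := by
          rw [← h8]
          ring_nf
        rw [h8', ← hZ, hpow3, ← hρ] at hrad
        -- pointwise bound
        have hpt : ∀ u' ∈ B, ∀ v' ∈ B', |a u' - a v'| ^ p
            ≤ X / 3 * ((8 * r) ^ p * fl N D p a (8 * r) u'
              + 2 * (W * Z ^ 5) * ρ * E / ((B.card : ℝ) + (B'.card : ℝ))
              + (8 * r) ^ p * fl N D p a (8 * r) v') := by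
          intro u' hu' v' hv'
          rw [hB, mem_bal] at hu'
          rw [hB', mem_bal] at hv'
          have hsub1 : bal N D u (5 * r) ⊆ bal N D u' (8 * r) := by
            intro x hx
            rw [mem_bal] at hx ⊢
            refine ⟨hx.1, ?_⟩
            have := htri u' u x
            rw [hsymm u' u] at this
            linarith [hu'.2, hx.2]
          have hsub2 : bal N D v (5 * r) ⊆ bal N D v' (8 * r) := by
            intro x hx
            rw [mem_bal] at hx ⊢
            refine ⟨hx.1, ?_⟩
            have := htri v' v x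
            rw [hsymm v' v] at this
            linarith [hv'.2, hx.2]
          have hc1 : Γ < ((bal N D u' (8 * r)).card : ℝ) := by
            refine lt_of_lt_of_le h1 ?_
            exact_mod_cast Finset.card_le_card hsub1
          have hc2 : Γ < ((bal N D v' (8 * r)).card : ℝ) := by
            refine lt_of_lt_of_le h2 ?_
            exact_mod_cast Finset.card_le_card hsub2
          have hu'v' : D u' v' ≤ 8 * r := by
            have h1 := htri u' u v'
            have h2 := htri u v v'
            rw [hsymm u' u] at h1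
            linarith [hu'.2, hv'.2]
          have hlt : B.card + B'.card
              < (bal N D u' (8 * r)).card + (bal N D v' (8 * r)).card := by
            have : ((B.card + B'.card : ℕ) : ℝ)
                < (((bal N D u' (8 * r)).card + (bal N D v' (8 * r)).card : ℕ) : ℝ) := by
              push_cast
              have := bal_card_pos N D hD0 v' hv'.1 (8 * r) h8pos.le
              linarith
            exact_mod_cast this
          have hle1 : (bal N D u' (8 * r)).card ≤ N.card :=
            Finset.card_le_card (bal_subset N D u' _)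
          have hle2 : (bal N D v' (8 * r)).card ≤ N.card :=
            Finset.card_le_card (bal_subset N D v' _)
          have hih := ih (2 * N.card
            - ((bal N D u' (8 * r)).card + (bal N D v' (8 * r)).card)) (by omega) (j + 1) u' v'
            hu'.1 hv'.1 (by rw [h8]; exact hu'v') (by rw [h8]; omega) (by rw [h8])
          rw [h8] at hih
          have hWj : Z ^ (3 * (j + 1)) = W * Z ^ 3 := by
            rw [hW, mul_add, pow_add]
          rw [hWj] at hih
          set c := ((bal N D u' (8 * r)).card : ℝ) with hc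
          set c' := ((bal N D v' (8 * r)).card : ℝ) with hc'
          have hc0 : 0 < c := by linarith
          have hc'0 : 0 < c' := by linarith
          set y := avg a (bal N D u' (8 * r)) - avg a (bal N D v' (8 * r)) with hy
          have hyb : |y| ^ p ≤ 2 * (W * Z ^ 5) * ρ * E / ((B.card : ℝ) + (B'.card : ℝ)) := by
            have e1 : |y| ^ p ≤ X * (W * Z ^ 3 * Z ^ 5) * ρ * E * (c + c') / (c * c') := by
              rw [le_div_iff₀ (by positivity)]
              linarith
            have e2 : (c + c') / (c * c') ≤ 2 / Γ := by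
              have : (c + c') / (c * c') = 1 / c' + 1 / c := by field_simp
              rw [this]
              have g1 : 1 / c' ≤ 1 / Γ := one_div_le_one_div_of_le hΓ0 hc2.le
              have g2 : 1 / c ≤ 1 / Γ := one_div_le_one_div_of_le hΓ0 hc1.le
              have : 2 / Γ = 1 / Γ + 1 / Γ := by ring
              linarith
            calc |y| ^ p ≤ X * (W * Z ^ 3 * Z ^ 5) * ρ * E * (c + c') / (c * c') := e1
              _ = X * (W * Z ^ 3 * Z ^ 5) * ρ * E * ((c + c') / (c * c')) := by ring
              _ ≤ X * (W * Z ^ 3 * Z ^ 5) * ρ * E * (2 / Γ) := by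
                  apply mul_le_mul_of_nonneg_left e2 (by positivity)
              _ = 2 * (W * Z ^ 5) * ρ * E / ((B.card : ℝ) + (B'.card : ℝ)) := by
                  rw [hΓ]
                  field_simp
          have hx := sub_avg_le' N D hD0 p hp a (8 * r) h8pos u' hu'.1
          have hz := sub_avg_le' N D hD0 p hp a (8 * r) h8pos v' hv'.1
          have hdecomp : a u' - a v' = (a u' - avg a (bal N D u' (8 * r))) + y
              + (avg a (bal N D v' (8 * r)) - a v') := by
            rw [hy]
            ring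
          have h3t := three_term (a u' - avg a (bal N D u' (8 * r))) y
            (avg a (bal N D v' (8 * r)) - a v') p hp
          rw [← hdecomp] at h3t
          have h3p : (3 : ℝ) ^ (p - 1) = X / 3 := by
            rw [Real.rpow_sub_one (by norm_num)]
          rw [h3p, abs_sub_comm (avg a (bal N D v' (8 * r))) (a v')] at h3t
          refine le_trans h3t ?_
          apply mul_le_mul_of_nonneg_left _ (by positivity)
          linarith
        -- sum up
        have hfB : (8 * r) ^ p * ∑ w ∈ B, fl N D p a (8 * r) w ≤ W * Z ^ 3 * ρ * E := by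
          have hs := sum_fl_le N D p a r0 hr0.le J (3 * j + 3) hidx B (bal_subset N D u r)
          rw [h8'] at hs
          calc (8 * r) ^ p * ∑ w ∈ B, fl N D p a (8 * r) w
              ≤ (8 * r) ^ p * (2 ^ (3 * j + 3) * E) :=
                mul_le_mul_of_nonneg_left hs (Real.rpow_nonneg h8pos.le _)
            _ = ((8 * r) ^ p * 2 ^ (3 * j + 3)) * E := by ring
            _ = W * Z ^ 3 * ρ * E := by rw [hrad]
        have hfB' : (8 * r) ^ p * ∑ w ∈ B', fl N D p a (8 * r) w ≤ W * Z ^ 3 * ρ * E := by
          have hs := sum_fl_le N D p a r0 hr0.le J (3 * j + 3) hidx B' (bal_subset N D v r)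
          rw [h8'] at hs
          calc (8 * r) ^ p * ∑ w ∈ B', fl N D p a (8 * r) w
              ≤ (8 * r) ^ p * (2 ^ (3 * j + 3) * E) :=
                mul_le_mul_of_nonneg_left hs (Real.rpow_nonneg h8pos.le _)
            _ = ((8 * r) ^ p * 2 ^ (3 * j + 3)) * E := by ring
            _ = W * Z ^ 3 * ρ * E := by rw [hrad]
        have hsum : ∑ w ∈ B, ∑ w' ∈ B', |a w - a w'| ^ p
            ≤ X / 3 * (W * Z ^ 3 * ρ * ((B'.card : ℝ) * E)
              + (B.card : ℝ) * (B'.card : ℝ)
                * (2 * (W * Z ^ 5) * ρ * E / ((B.card : ℝ) + (B'.card : ℝ)))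
              + W * Z ^ 3 * ρ * ((B.card : ℝ) * E)) := by
          set t := 2 * (W * Z ^ 5) * ρ * E / ((B.card : ℝ) + (B'.card : ℝ)) with ht
          set Y := (8 * r) ^ p with hY
          calc ∑ w ∈ B, ∑ w' ∈ B', |a w - a w'| ^ p
              ≤ ∑ w ∈ B, ∑ w' ∈ B', X / 3 * (Y * fl N D p a (8 * r) w + t
                  + Y * fl N D p a (8 * r) w') :=
                Finset.sum_le_sum (fun w hw => Finset.sum_le_sum (fun w' hw' => hpt w hw w' hw'))
            _ = X / 3 * ((B'.card : ℝ) * (Y * ∑ w ∈ B, fl N D p a (8 * r) w)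
                + (B.card : ℝ) * (B'.card : ℝ) * t
                + (B.card : ℝ) * (Y * ∑ w' ∈ B', fl N D p a (8 * r) w')) := by
                simp only [← Finset.mul_sum, Finset.sum_add_distrib, Finset.sum_const,
                  nsmul_eq_mul]
                ring
            _ ≤ _ := by
                apply mul_le_mul_of_nonneg_left _ (by positivity)
                have g1 := mul_le_mul_of_nonneg_left hfB hb'.le
                have g2 := mul_le_mul_of_nonneg_left hfB' hb.le
                have e1 : (B'.card : ℝ) * (W * Z ^ 3 * ρ * E) = W * Z ^ 3 * ρ * ((B'.card : ℝ) * E) := by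
                  ring
                have e2 : (B.card : ℝ) * (W * Z ^ 3 * ρ * E) = W * Z ^ 3 * ρ * ((B.card : ℝ) * E) := by
                  ring
                rw [e1] at g1
                rw [e2] at g2
                linarith
        have hj' := avg_sub_avg_le a B B' hBne hB'ne p hp
        exact le_trans hj' (fast_arith X Z W ρ E _ _ _ hX1 hZ1 hW0.le hρ0.le hE0 hb hb' hsum)

end Vale.Agent.P249
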