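import Mathlib
import Vale.Agent.P249.Level2

/-!
# P249: the inequality for one level
-/

namespace Vale.Agent.P249

open Finset

variable {ι : Type*} [Fintype ι]

theorem level_ineq (N : Finset ι) (D : ι → ι → ℝ) (hD0 : ∀ u, D u u = 0)
    (hsymm : ∀ u v, D u v = D v u) (htri : ∀ u v w, D u w ≤ D u v + D v w)
    (p : ℝ) (hp : 1 ≤ p) (a : ι → ℝ) (r0 : ℝ) (hr0 : 0 < r0) (J : ℕ) (hJ : 6 * N.card ≤ J)
    (u v : ι) (hu : u ∈ N) (hv : v ∈ N) (huv : D u v ≤ r0) :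
    |a u - a v| ^ p ≤ 3 ^ p * 3 ^ p * (2 * 2 ^ p) ^ 5 * r0 ^ p * lev N D p a r0 J := by
  have hp0 : 0 < p := by linarith
  have h0 : (2 : ℝ) ^ (3 * 0) * r0 = r0 := by simp
  have hcb := config_bound' N D hD0 hsymm htri p hp a r0 hr0 J hJ _ 0 u v hu hv
    (by rw [h0]; exact huv)
    (by
      rw [h0]
      have h1 : 0 < (bal N D u r0).card := Finset.card_pos.2 ⟨u, self_mem_bal N D hD0 u hu r0 hr0.le⟩
      have h2 : 0 < (bal N D v r0).card := Finset.card_pos.2 ⟨v, self_mem_bal N D hD0 v hv r0 hr0.le⟩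
      omega) rfl
  rw [h0] at hcb
  set E := lev N D p a r0 J with hE
  have hE0 : 0 ≤ E := lev_nonneg N D p a r0 hr0.le J
  set X : ℝ := 3 ^ p with hX
  set Z : ℝ := 2 * 2 ^ p with hZ
  set ρ : ℝ := r0 ^ p with hρ
  have hX1 : 1 ≤ X := Real.one_le_rpow (by norm_num) hp0.le
  have hZ1 : 1 ≤ Z := by
    have : (1 : ℝ) ≤ 2 ^ p := Real.one_le_rpow (by norm_num) hp0.le
    rw [hZ]
    linarith
  have hρ0 : 0 < ρ := Real.rpow_pos_of_pos hr0 p
  set B := bal N D u r0 with hB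
  set B' := bal N D v r0 with hB'
  have hb1 : (1 : ℝ) ≤ (B.card : ℝ) := by
    have : 0 < B.card := Finset.card_pos.2 ⟨u, self_mem_bal N D hD0 u hu r0 hr0.le⟩
    exact_mod_cast this
  have hb1' : (1 : ℝ) ≤ (B'.card : ℝ) := by
    have : 0 < B'.card := Finset.card_pos.2 ⟨v, self_mem_bal N D hD0 v hv r0 hr0.le⟩
    exact_mod_cast this
  set b := (B.card : ℝ) with hb
  set b' := (B'.card : ℝ) with hb'
  set y := avg a B - avg a B' with hy
  have hZ5 : 1 ≤ Z ^ 5 := one_le_pow₀ hZ1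
  have hyb : |y| ^ p ≤ 2 * (X * Z ^ 5 * ρ * E) := by
    have e1 : |y| ^ p ≤ X * Z ^ 5 * ρ * E * (b + b') / (b * b') := by
      rw [le_div_iff₀ (by positivity)]
      simp only [Nat.mul_zero, pow_zero, one_mul] at hcb
      linarith
    have e2 : (b + b') / (b * b') ≤ 2 := by
      rw [div_le_iff₀ (by positivity)]
      nlinarith
    calc |y| ^ p ≤ X * Z ^ 5 * ρ * E * (b + b') / (b * b') := e1
      _ = X * Z ^ 5 * ρ * E * ((b + b') / (b * b')) := by ring
      _ ≤ X * Z ^ 5 * ρ * E * 2 := by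
          apply mul_le_mul_of_nonneg_left e2 (by positivity)
      _ = 2 * (X * Z ^ 5 * ρ * E) := by ring
  have hJ0 : 0 < J := by
    have : 0 < N.card := Finset.card_pos.2 ⟨u, hu⟩
    omega
  have hfl : ∀ w ∈ N, fl N D p a r0 w ≤ E := by
    intro w hw
    have := sum_fl_le N D p a r0 hr0.le J 0 hJ0 {w} (by simpa using hw)
    simpa using this
  have hx := sub_avg_le' N D hD0 p hp a r0 hr0 u hu
  have hz := sub_avg_le' N D hD0 p hp a r0 hr0 v hv
  have hx' : |a u - avg a B| ^ p ≤ ρ * E :=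
    le_trans hx (mul_le_mul_of_nonneg_left (hfl u hu) hρ0.le)
  have hz' : |a v - avg a B'| ^ p ≤ ρ * E :=
    le_trans hz (mul_le_mul_of_nonneg_left (hfl v hv) hρ0.le)
  have hdecomp : a u - a v = (a u - avg a B) + y + (avg a B' - a v) := by
    rw [hy]
    ring
  have h3t := three_term (a u - avg a B) y (avg a B' - a v) p hp
  rw [← hdecomp] at h3t
  have h3p : (3 : ℝ) ^ (p - 1) = X / 3 := by
    rw [Real.rpow_sub_one (by norm_num)]
  rw [h3p, abs_sub_comm (avg a B') (a v)] at h3t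
  have hρE : 0 ≤ ρ * E := by positivity
  have hZ2 : 2 ≤ Z := by
    have : (1 : ℝ) ≤ 2 ^ p := Real.one_le_rpow (by norm_num) hp0.le
    rw [hZ]
    linarith
  have hZ52 : 2 ≤ Z ^ 5 := le_trans hZ2 (le_self_pow₀ hZ1 (by norm_num))
  have hXZ : 2 ≤ X * Z ^ 5 := by nlinarith
  calc |a u - a v| ^ p ≤ X / 3 * (|a u - avg a B| ^ p + |y| ^ p + |a v - avg a B'| ^ p) := h3t
    _ ≤ X / 3 * (ρ * E + 2 * (X * Z ^ 5 * ρ * E) + ρ * E) := by
        apply mul_le_mul_of_nonneg_left _ (by positivity)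
        linarith
    _ = (ρ * E) * (X / 3 * (2 + 2 * (X * Z ^ 5))) := by ring
    _ ≤ (ρ * E) * (X * X * Z ^ 5) := by
        apply mul_le_mul_of_nonneg_left _ hρE
        have h2 : X / 3 * (2 + 2 * (X * Z ^ 5)) ≤ X / 3 * (3 * (X * Z ^ 5)) := by
          apply mul_le_mul_of_nonneg_left _ (by positivity)
          linarith
        have h3 : X / 3 * (3 * (X * Z ^ 5)) = X * X * Z ^ 5 := by ring
        linarith
    _ = X * X * Z ^ 5 * ρ * E := by ring

end Vale.Agent.P249
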