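import Mathlib
import Vale.Agent.P249.Level3
import Vale.Agent.P249.Nets

/-!
# P249: the multi-scale key inequality with total weight linear in the number of points
-/

namespace Vale.Agent.P249

open Finset

variable {ι : Type*} [Fintype ι] [DecidableEq ι]

theorem key_ineq4 (D : ι → ι → ℝ) (hD0 : ∀ u, D u u = 0)
    (hsymm : ∀ u v, D u v = D v u) (htri : ∀ u v w, D u w ≤ D u v + D v w)
    (p : ℝ) (hp : 1 ≤ p) (δ : ℝ) (hδ0 : 0 < δ) (hδ8 : ∀ u v, u ≠ v → 8 * δ ≤ D u v)
    (S : ℕ) (hS : ∀ u v, D u v < 8 * (2 ^ S * δ)) (J : ℕ) (hJ : 6 * Fintype.card ι ≤ J)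
    (a : ι → ℝ) (i j : ι) (hij : i ≠ j) :
    |a i - a j| ^ p / (D i j) ^ p
      ≤ (3 ^ p * 3 ^ p * (2 * 2 ^ p) ^ 5 * 8 ^ p)
        * ∑ s ∈ range S, lev (netSeq D δ s) D p a (32 * (2 ^ s * δ)) J := by
  have hp0 : 0 < p := by linarith
  have hpos : ∀ u v, u ≠ v → 0 < D u v := fun u v h => by
    have := hδ8 u v h
    linarith
  set P : Finset (ι × ι) := (univ : Finset ι).offDiag with hP
  have hPne : P.Nonempty := ⟨(i, j), by simp [hP, Finset.mem_offDiag, hij]⟩
  obtain ⟨e0, he0, hmax⟩ := Finset.exists_max_image P (fun e => |a e.1 - a e.2| / D e.1 e.2) hPne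
  have hne0 : e0.1 ≠ e0.2 := by simpa [hP, Finset.mem_offDiag] using he0
  set i0 := e0.1 with hi0
  set j0 := e0.2 with hj0
  set d := D i0 j0 with hd
  have hdpos : 0 < d := hpos i0 j0 hne0
  set L := |a i0 - a j0| / d with hL
  have hL0 : 0 ≤ L := div_nonneg (abs_nonneg _) hdpos.le
  have hLip : ∀ u v, |a u - a v| ≤ L * D u v := by
    intro u v
    by_cases huv : u = v
    · subst huv
      simp [hD0]
    · have h := hmax (u, v) (by simp [hP, Finset.mem_offDiag, huv])
      simp only at h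
      rw [div_le_iff₀ (hpos u v huv)] at h
      exact h
  have hLd : |a i0 - a j0| = L * d := by
    rw [hL]
    field_simp
  -- choose the level
  have hx1 : 1 ≤ d / (8 * δ) := by
    rw [le_div_iff₀ (by positivity)]
    have := hδ8 i0 j0 hne0
    linarith
  obtain ⟨s, hs1, hs2⟩ := exists_nat_pow_near hx1 (by norm_num : (1 : ℝ) < 2)
  rw [le_div_iff₀ (by positivity)] at hs1
  rw [div_lt_iff₀ (by positivity)] at hs2
  set τ := 2 ^ s * δ with hτ
  have hτ0 : 0 < τ := by positivity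
  have hs1' : 8 * τ ≤ d := by
    rw [hτ]
    linarith
  have hs2' : d < 16 * τ := by
    rw [hτ]
    have : (2 : ℝ) ^ (s + 1) * (8 * δ) = 16 * (2 ^ s * δ) := by ring
    linarith
  have hsS : s < S := by
    have h1 := hS i0 j0
    have h2 : (2 : ℝ) ^ s * δ < 2 ^ S * δ := by
      rw [← hd] at h1
      linarith
    have h3 : (2 : ℝ) ^ s < 2 ^ S := lt_of_mul_lt_mul_right h2 hδ0.le
    exact (pow_lt_pow_iff_right₀ (by norm_num : (1 : ℝ) < 2)).1 h3
  obtain ⟨i', hi', hii'⟩ := netSeq_cover D hD0 hsymm htri δ hδ0 s i0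
  obtain ⟨j', hj', hjj'⟩ := netSeq_cover D hD0 hsymm htri δ hδ0 s j0
  rw [← hτ] at hii' hjj'
  have hi2 : D i0 i' ≤ 2 * τ := by linarith
  have hj2 : D j0 j' ≤ 2 * τ := by linarith
  have hDij' : D i' j' ≤ 32 * τ := by
    have h1 := htri i' i0 j'
    have h2 := htri i0 j0 j'
    rw [hsymm i' i0] at h1
    rw [← hd] at h2
    linarith
  have hlow : L * (d / 2) ≤ |a i' - a j'| := by
    have h1 := hLip i0 i'
    have h2 := hLip j0 j'
    have h3 : |a i0 - a j0| ≤ |a i0 - a i'| + |a i' - a j'| + |a j0 - a j'| := by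
      have e : a i0 - a j0 = (a i0 - a i') + (a i' - a j') + (a j' - a j0) := by ring
      rw [e]
      refine le_trans (abs_add_three _ _ _) ?_
      rw [abs_sub_comm (a j') (a j0)]
    have h4 : L * D i0 i' ≤ L * (2 * τ) := mul_le_mul_of_nonneg_left hi2 hL0
    have h5 : L * D j0 j' ≤ L * (2 * τ) := mul_le_mul_of_nonneg_left hj2 hL0
    have h6 : L * (4 * τ) ≤ L * (d / 2) := mul_le_mul_of_nonneg_left (by linarith) hL0
    rw [hLd] at h3
    nlinarith
  have hcardN : 6 * (netSeq D δ s).card ≤ J := by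
    have : (netSeq D δ s).card ≤ Fintype.card ι := Finset.card_le_univ _
    omega
  have hlev := level_ineq (netSeq D δ s) D hD0 hsymm htri p hp a (32 * τ) (by positivity) J hcardN
    i' j' hi' hj' hDij'
  set C : ℝ := 3 ^ p * 3 ^ p * (2 * 2 ^ p) ^ 5 with hC
  have hC0 : 0 < C := by positivity
  set Es := lev (netSeq D δ s) D p a (32 * τ) J with hEs
  have hEs0 : 0 ≤ Es := lev_nonneg _ D p a _ (by positivity) J
  have h32 : (32 * τ) ^ p ≤ (4 * d) ^ p :=
    Real.rpow_le_rpow (by positivity) (by linarith) hp0.le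
  have hLp : L ^ p ≤ C * 8 ^ p * Es := by
    have h1 : (L * (d / 2)) ^ p ≤ |a i' - a j'| ^ p :=
      Real.rpow_le_rpow (by positivity) hlow hp0.le
    have h2 : (L * (d / 2)) ^ p = L ^ p * (d / 2) ^ p := Real.mul_rpow hL0 (by positivity)
    have h3 : (4 * d) ^ p = 8 ^ p * (d / 2) ^ p := by
      rw [← Real.mul_rpow (by norm_num) (by positivity)]
      congr 1
      ring
    have h4 : 0 < (d / 2) ^ p := Real.rpow_pos_of_pos (by positivity) p
    have h5 : L ^ p * (d / 2) ^ p ≤ (C * 8 ^ p * Es) * (d / 2) ^ p := by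
      calc L ^ p * (d / 2) ^ p = (L * (d / 2)) ^ p := h2.symm
        _ ≤ |a i' - a j'| ^ p := h1
        _ ≤ C * (32 * τ) ^ p * Es := hlev
        _ ≤ C * (4 * d) ^ p * Es := by
            apply mul_le_mul_of_nonneg_right _ hEs0
            exact mul_le_mul_of_nonneg_left h32 hC0.le
        _ = (C * 8 ^ p * Es) * (d / 2) ^ p := by
            rw [h3]
            ring
    exact le_of_mul_le_mul_right h5 h4
  have hsum : Es ≤ ∑ s ∈ range S, lev (netSeq D δ s) D p a (32 * (2 ^ s * δ)) J := by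
    exact Finset.single_le_sum
      (f := fun s => lev (netSeq D δ s) D p a (32 * (2 ^ s * δ)) J)
      (fun k _ => lev_nonneg _ D p a _ (by positivity) J) (Finset.mem_range.2 hsS)
  have hfin : |a i - a j| ^ p / (D i j) ^ p ≤ L ^ p := by
    rw [← Real.div_rpow (abs_nonneg _) (hpos i j hij).le]
    apply Real.rpow_le_rpow (div_nonneg (abs_nonneg _) (hpos i j hij).le) _ hp0.le
    exact hmax (i, j) (by simp [hP, Finset.mem_offDiag, hij])
  calc |a i - a j| ^ p / (D i j) ^ p ≤ L ^ p := hfin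
    _ ≤ C * 8 ^ p * Es := hLp
    _ ≤ C * 8 ^ p * ∑ s ∈ range S, lev (netSeq D δ s) D p a (32 * (2 ^ s * δ)) J := by
        apply mul_le_mul_of_nonneg_left hsum (by positivity)

end Vale.Agent.P249
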