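import Mathlib
import Vale.Agent.P249.Key4
import Vale.Agent.P249.Count
import Vale.Agent.P249.Bounds

/-!
# P249: total sensitivity linear in the number of points, and the sampling theorem
-/

namespace Vale.Agent.P249

open MeasureTheory Finset

variable {ι : Type*} [Fintype ι] [DecidableEq ι] {Ω : Type*} [MeasurableSpace Ω]

theorem integrable_fl (μ : Measure Ω) (a : ι → Ω → ℝ) (D : ι → ι → ℝ) (p : ℝ)
    (hint : ∀ u v, Integrable (fun ω => |a u ω - a v ω| ^ p) μ) (N : Finset ι) (r : ℝ) (u : ι) :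
    Integrable (fun ω => fl N D p (fun x => a x ω) r u) μ := by
  unfold fl
  exact (integrable_finsetSum _ (fun v _ => hint u v)).div_const _

theorem integral_fl_le (μ : Measure Ω) (a : ι → Ω → ℝ) (D : ι → ι → ℝ) (hD0 : ∀ u, D u u = 0)
    (hnn : ∀ u v, 0 ≤ D u v) (p : ℝ) (hp : 0 < p)
    (hint : ∀ u v, Integrable (fun ω => |a u ω - a v ω| ^ p) μ)
    (hD : ∀ u v, ∫ ω, |a u ω - a v ω| ^ p ∂μ = (D u v) ^ p)
    (N : Finset ι) (r : ℝ) (hr : 0 < r) (u : ι) (hu : u ∈ N) :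
    ∫ ω, fl N D p (fun x => a x ω) r u ∂μ ≤ if u ∈ act N D r then 1 else 0 := by
  have hval : ∫ ω, fl N D p (fun x => a x ω) r u ∂μ
      = (∑ v ∈ bal N D u r, (D u v) ^ p) / (((bal N D u r).card : ℝ) * r ^ p) := by
    unfold fl
    rw [integral_div, integral_finsetSum _ (fun v _ => hint u v)]
    congr 1
    exact Finset.sum_congr rfl (fun v _ => hD u v)
  rw [hval]
  have hc := bal_card_pos N D hD0 u hu r hr.le
  have hrp : 0 < r ^ p := Real.rpow_pos_of_pos hr p
  split_ifs with h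
  · rw [div_le_one (by positivity)]
    calc ∑ v ∈ bal N D u r, (D u v) ^ p ≤ ∑ _v ∈ bal N D u r, r ^ p := by
          apply Finset.sum_le_sum
          intro v hv
          rw [mem_bal] at hv
          exact Real.rpow_le_rpow (hnn u v) hv.2 hp.le
      _ = ((bal N D u r).card : ℝ) * r ^ p := by
          rw [Finset.sum_const, nsmul_eq_mul]
  · have hz : ∑ v ∈ bal N D u r, (D u v) ^ p = 0 := by
      apply Finset.sum_eq_zero
      intro v hv
      rw [mem_bal] at hv
      have hvu : v = u := by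
        by_contra hne
        exact h (mem_act.2 ⟨hu, v, hv.1, hne, hv.2⟩)
      rw [hvu, hD0, Real.zero_rpow hp.ne']
    rw [hz, zero_div]

theorem integrable_lev (μ : Measure Ω) (a : ι → Ω → ℝ) (D : ι → ι → ℝ) (p : ℝ)
    (hint : ∀ u v, Integrable (fun ω => |a u ω - a v ω| ^ p) μ) (N : Finset ι) (r0 : ℝ) (J : ℕ) :
    Integrable (fun ω => lev N D p (fun x => a x ω) r0 J) μ := by
  unfold lev
  apply integrable_finsetSum
  intro i _
  apply Integrable.const_mul
  apply integrable_finsetSum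
  intro u _
  exact integrable_fl μ a D p hint N _ u

theorem integral_lev_le (μ : Measure Ω) (a : ι → Ω → ℝ) (D : ι → ι → ℝ) (hD0 : ∀ u, D u u = 0)
    (hnn : ∀ u v, 0 ≤ D u v) (p : ℝ) (hp : 0 < p)
    (hint : ∀ u v, Integrable (fun ω => |a u ω - a v ω| ^ p) μ)
    (hD : ∀ u v, ∫ ω, |a u ω - a v ω| ^ p ∂μ = (D u v) ^ p)
    (N : Finset ι) (r0 : ℝ) (hr : 0 < r0) (J : ℕ) :
    ∫ ω, lev N D p (fun x => a x ω) r0 J ∂μ
      ≤ ∑ i ∈ range J, (1 / 2 : ℝ) ^ i * ((act N D (2 ^ i * r0)).card : ℝ) := by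
  unfold lev
  rw [integral_finsetSum _ (fun i _ => Integrable.const_mul
    (integrable_finsetSum _ (fun u _ => integrable_fl μ a D p hint N _ u)) _)]
  apply Finset.sum_le_sum
  intro i _
  rw [integral_const_mul]
  apply mul_le_mul_of_nonneg_left _ (by positivity)
  rw [integral_finsetSum _ (fun u _ => integrable_fl μ a D p hint N _ u)]
  calc ∑ u ∈ N, ∫ ω, fl N D p (fun x => a x ω) (2 ^ i * r0) u ∂μ
      ≤ ∑ u ∈ N, (if u ∈ act N D (2 ^ i * r0) then (1 : ℝ) else 0) :=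
        Finset.sum_le_sum (fun u hu =>
          integral_fl_le μ a D hD0 hnn p hp hint hD N _ (by positivity) u hu)
    _ = ((act N D (2 ^ i * r0)).card : ℝ) := by
        rw [Finset.sum_ite_mem, Finset.sum_const, nsmul_eq_mul, mul_one]
        congr 2
        apply Finset.inter_eq_right.2
        intro x hx
        exact (mem_act.1 hx).1

theorem integral_total_le (μ : Measure Ω) (a : ι → Ω → ℝ) (D : ι → ι → ℝ) (hD0 : ∀ u, D u u = 0)
    (hnn : ∀ u v, 0 ≤ D u v) (hsymm : ∀ u v, D u v = D v u)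
    (htri : ∀ u v w, D u w ≤ D u v + D v w) (p : ℝ) (hp : 0 < p)
    (hint : ∀ u v, Integrable (fun ω => |a u ω - a v ω| ^ p) μ)
    (hD : ∀ u v, ∫ ω, |a u ω - a v ω| ^ p ∂μ = (D u v) ^ p)
    (δ : ℝ) (hδ0 : 0 < δ) (hδ : ∀ u v, u ≠ v → δ < D u v) (S J : ℕ) :
    ∫ ω, ∑ s ∈ range S, lev (netSeq D δ s) D p (fun x => a x ω) (32 * (2 ^ s * δ)) J ∂μ
      ≤ 28 * (Fintype.card ι : ℝ) := by
  rw [integral_finsetSum _ (fun s _ => integrable_lev μ a D p hint _ _ J)]
  calc ∑ s ∈ range S, ∫ ω, lev (netSeq D δ s) D p (fun x => a x ω) (32 * (2 ^ s * δ)) J ∂μ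
      ≤ ∑ s ∈ range S, ∑ i ∈ range J, (1 / 2 : ℝ) ^ i
          * ((act (netSeq D δ s) D (2 ^ i * (32 * (2 ^ s * δ)))).card : ℝ) :=
        Finset.sum_le_sum (fun s _ =>
          integral_lev_le μ a D hD0 hnn p hp hint hD _ _ (by positivity) J)
    _ = ∑ i ∈ range J, (1 / 2 : ℝ) ^ i
          * ∑ s ∈ range S, ((act (netSeq D δ s) D (2 ^ i * (32 * (2 ^ s * δ)))).card : ℝ) := by
        rw [Finset.sum_comm]
        apply Finset.sum_congr rfl
        intro i _
        rw [Finset.mul_sum]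
    _ ≤ ∑ i ∈ range J, (1 / 2 : ℝ) ^ i * (2 * (((i + 6 : ℕ) : ℝ) * (Fintype.card ι : ℝ))) := by
        apply Finset.sum_le_sum
        intro i _
        apply mul_le_mul_of_nonneg_left _ (by positivity)
        exact total_act D hnn hsymm htri δ hδ S i
    _ = (2 * (Fintype.card ι : ℝ)) * ∑ i ∈ range J, (1 / 2 : ℝ) ^ i * ((i + 6 : ℕ) : ℝ) := by
        rw [Finset.mul_sum]
        apply Finset.sum_congr rfl
        intro i _
        ring
    _ ≤ (2 * (Fintype.card ι : ℝ)) * 14 := by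
        apply mul_le_mul_of_nonneg_left (geom_sum_le J) (by positivity)
    _ = 28 * (Fintype.card ι : ℝ) := by ring

end Vale.Agent.P249
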