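import Mathlib
import Vale.Agent.P249.Core3

/-!
# P249: the sampling theorem with total sensitivity linear in the number of points
-/

namespace Vale.Agent.P249

open MeasureTheory Finset

theorem core_lin {ι : Type*} [Fintype ι] [DecidableEq ι] {Ω : Type*} [MeasurableSpace Ω]
    (μ : Measure Ω) (a : ι → Ω → ℝ) (D : ι → ι → ℝ) (hD0 : ∀ u, D u u = 0)
    (hsymm : ∀ u v, D u v = D v u) (htri : ∀ u v w, D u w ≤ D u v + D v w)
    (hpos : ∀ u v, u ≠ v → 0 < D u v) (p : ℝ) (hp : 1 ≤ p)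
    (hint : ∀ u v, Integrable (fun ω => |a u ω - a v ω| ^ p) μ)
    (hD : ∀ u v, ∫ ω, |a u ω - a v ω| ^ p ∂μ = (D u v) ^ p)
    (hcard : 2 ≤ Fintype.card ι)
    (η : ℝ) (hη : 0 < η) (hη1 : η ≤ 1) (k : ℕ)
    (hk : 4 * ((3 ^ p * 3 ^ p * (2 * 2 ^ p) ^ 5 * 8 ^ p) * (28 * (Fintype.card ι : ℝ)))
        * Real.log (2 * (Fintype.card ι : ℝ) ^ 2) / η ^ 2 ≤ (k : ℝ)) :
    ∃ (ω : Fin k → Ω) (c : Fin k → ℝ), (∀ t, 0 < c t) ∧ ∀ u v,
      (1 - η) * (D u v) ^ p ≤ ∑ t, c t * |a u (ω t) - a v (ω t)| ^ p ∧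
      ∑ t, c t * |a u (ω t) - a v (ω t)| ^ p ≤ (1 + η) * (D u v) ^ p := by
  classical
  have hp0 : 0 < p := by linarith
  set n : ℝ := (Fintype.card ι : ℝ) with hn
  have hn2 : (2 : ℝ) ≤ n := by
    rw [hn]
    exact_mod_cast hcard
  have hnn : ∀ u v, 0 ≤ D u v := by
    intro u v
    by_cases h : u = v
    · subst h
      rw [hD0]
    · exact (hpos u v h).le
  set s : Finset (ι × ι) := (univ : Finset ι).offDiag with hs
  have hne : ∀ e ∈ s, e.1 ≠ e.2 := by
    intro e he
    simpa [hs, Finset.mem_offDiag] using he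
  have hsne : s.Nonempty := by
    obtain ⟨i, j, hij⟩ := Fintype.exists_pair_of_one_lt_card (by omega : 1 < Fintype.card ι)
    exact ⟨(i, j), by simp [hs, Finset.mem_offDiag, hij]⟩
  -- the scale `δ`
  obtain ⟨e1, he1, hmin⟩ := Finset.exists_min_image s (fun e => D e.1 e.2) hsne
  set δ : ℝ := D e1.1 e1.2 / 8 with hδ
  have hδ0 : 0 < δ := by
    have := hpos _ _ (hne e1 he1)
    positivity
  have hδ8 : ∀ u v, u ≠ v → 8 * δ ≤ D u v := by
    intro u v huv
    have := hmin (u, v) (by simp [hs, Finset.mem_offDiag, huv])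
    simp only at this
    rw [hδ]
    linarith
  have hδlt : ∀ u v, u ≠ v → δ < D u v := by
    intro u v huv
    have := hδ8 u v huv
    linarith
  -- the number of levels
  obtain ⟨e2, _, hmax⟩ := Finset.exists_max_image s (fun e => D e.1 e.2) hsne
  obtain ⟨S, hS'⟩ := pow_unbounded_of_one_lt (D e2.1 e2.2 / (8 * δ)) (by norm_num : (1 : ℝ) < 2)
  rw [div_lt_iff₀ (by positivity)] at hS'
  have hS : ∀ u v, D u v < 8 * (2 ^ S * δ) := by
    intro u v
    by_cases huv : u = v
    · subst huv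
      rw [hD0]
      positivity
    · have := hmax (u, v) (by simp [hs, Finset.mem_offDiag, huv])
      simp only at this
      linarith
  set J : ℕ := 6 * Fintype.card ι with hJ
  set C : ℝ := 3 ^ p * 3 ^ p * (2 * 2 ^ p) ^ 5 * 8 ^ p with hC
  have hCpos : 0 < C := by positivity
  set H : Ω → ℝ := fun ω =>
    ∑ l ∈ range S, lev (netSeq D δ l) D p (fun x => a x ω) (32 * (2 ^ l * δ)) J with hH
  have hH0 : ∀ ω, 0 ≤ H ω := fun ω =>
    Finset.sum_nonneg (fun l _ => lev_nonneg _ D p _ _ (by positivity) J)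
  have hHint : Integrable H μ := integrable_finsetSum _ (fun l _ => integrable_lev μ a D p hint _ _ J)
  set I : ℝ := ∫ ω, H ω ∂μ with hI
  have hIle : I ≤ 28 * n := integral_total_le μ a D hD0 hnn hsymm htri p hp0 hint hD δ hδ0 hδlt S J
  set G : ι × ι → Ω → ℝ := fun e ω => |a e.1 ω - a e.2 ω| ^ p / (D e.1 e.2) ^ p with hG
  have hDp : ∀ e ∈ s, 0 < (D e.1 e.2) ^ p := fun e he =>
    Real.rpow_pos_of_pos (hpos _ _ (hne e he)) p
  have hG0 : ∀ e ∈ s, ∀ ω, 0 ≤ G e ω := fun e _ ω =>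
    div_nonneg (Real.rpow_nonneg (abs_nonneg _) _) (Real.rpow_nonneg (hnn _ _) _)
  have hGint : ∀ e ∈ s, Integrable (G e) μ := fun e _ => (hint e.1 e.2).div_const _
  have hG1 : ∀ e ∈ s, ∫ ω, G e ω ∂μ = 1 := by
    intro e he
    simp only [hG]
    rw [integral_div, hD, div_self (hDp e he).ne']
  have hGH : ∀ e ∈ s, ∀ ω, G e ω ≤ C * H ω := by
    intro e he ω
    exact key_ineq4 D hD0 hsymm htri p hp δ hδ0 hδ8 S hS J le_rfl (fun x => a x ω) e.1 e.2 (hne e he)
  have hIpos : 0 < I := by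
    obtain ⟨e, he⟩ := hsne
    have h1 : ∫ ω, G e ω ∂μ ≤ ∫ ω, C * H ω ∂μ :=
      integral_mono (hGint e he) (hHint.const_mul C) (hGH e he)
    rw [hG1 e he, integral_const_mul] at h1
    by_contra hcon
    push Not at hcon
    have : C * I ≤ 0 := mul_nonpos_of_nonneg_of_nonpos hCpos.le hcon
    linarith
  set h : Ω → ℝ := fun ω => H ω / I with hh
  have hhint : Integrable h μ := hHint.div_const _
  have hh1 : ∫ ω, h ω ∂μ = 1 := by
    simp only [hh]
    rw [integral_div, ← hI, div_self hIpos.ne']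
  have hh0 : ∀ ω, 0 ≤ h ω := fun ω => div_nonneg (hH0 ω) hIpos.le
  set K : ℝ := C * I with hKdef
  have hK : 0 < K := by positivity
  have hGK : ∀ e ∈ s, ∀ ω, G e ω ≤ K * h ω := by
    intro e he ω
    have : K * h ω = C * H ω := by
      simp only [hKdef, hh]
      field_simp
    rw [this]
    exact hGH e he ω
  have hscard : (s.card : ℝ) ≤ n ^ 2 := by
    have h1 : s.card = Fintype.card ι * Fintype.card ι - Fintype.card ι := by
      rw [hs, Finset.offDiag_card, Finset.card_univ]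
    have h2 : s.card ≤ Fintype.card ι * Fintype.card ι := by omega
    calc (s.card : ℝ) ≤ ((Fintype.card ι * Fintype.card ι : ℕ) : ℝ) := by exact_mod_cast h2
      _ = n ^ 2 := by rw [hn]; push_cast; ring
  have hscard0 : 0 < (s.card : ℝ) := by exact_mod_cast Finset.card_pos.2 hsne
  have hscard1 : (1 : ℝ) ≤ (s.card : ℝ) := by exact_mod_cast Finset.card_pos.2 hsne
  have hk' : 4 * K * Real.log (2 * (s.card : ℝ)) / η ^ 2 ≤ (k : ℝ) := by
    refine le_trans ?_ hk
    apply div_le_div_of_nonneg_right _ (by positivity)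
    have hl1 : Real.log (2 * (s.card : ℝ)) ≤ Real.log (2 * n ^ 2) := by
      apply Real.log_le_log (by positivity)
      linarith
    have hl0 : 0 ≤ Real.log (2 * (s.card : ℝ)) := Real.log_nonneg (by linarith)
    have hKle : K ≤ C * (28 * n) := mul_le_mul_of_nonneg_left hIle hCpos.le
    apply mul_le_mul _ hl1 hl0 (by positivity)
    linarith
  have hkpos : 0 < (k : ℝ) := by
    refine lt_of_lt_of_le ?_ hk
    have : 0 < Real.log (2 * n ^ 2) := by
      apply Real.log_pos
      nlinarith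
    positivity
  obtain ⟨ω, hω, hb⟩ := sample_bounds s G h hGint hG1 hhint hh1 hh0 K hK hG0 hGK η hη hη1 k hk'
  refine ⟨ω, fun t => 1 / ((k : ℝ) * h (ω t)), ?_, ?_⟩
  · intro t
    have := hω t
    positivity
  · intro u v
    by_cases huv : u = v
    · subst huv
      simp [hD0, Real.zero_rpow hp0.ne']
    · have he : (u, v) ∈ s := by simp [hs, Finset.mem_offDiag, huv]
      obtain ⟨hb1, hb2⟩ := hb (u, v) he
      have hDuv : 0 < (D u v) ^ p := hDp (u, v) he
      have heq : ∑ t, 1 / ((k : ℝ) * h (ω t)) * |a u (ω t) - a v (ω t)| ^ p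
          = (D u v) ^ p / (k : ℝ) * ∑ t, G (u, v) (ω t) / h (ω t) := by
        rw [Finset.mul_sum]
        apply Finset.sum_congr rfl
        intro t _
        have := hω t
        simp only [hG]
        field_simp
      rw [heq]
      have hfac : 0 < (D u v) ^ p / (k : ℝ) := by positivity
      constructor
      · calc (1 - η) * (D u v) ^ p = (D u v) ^ p / (k : ℝ) * ((1 - η) * (k : ℝ)) := by
              field_simp
          _ ≤ _ := mul_le_mul_of_nonneg_left hb1 hfac.le
      · calc _ ≤ (D u v) ^ p / (k : ℝ) * ((1 + η) * (k : ℝ)) :=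
              mul_le_mul_of_nonneg_left hb2 hfac.le
          _ = (1 + η) * (D u v) ^ p := by
              field_simp

end Vale.Agent.P249
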