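import Mathlib
import Vale.Agent.P249.Embed3

/-!
# P249: the dimension function `d_p(n, D)` itself

`EmbedsAll p n D d` says that every `n`-point subset of every `L_p(μ)` admits a map into `ℓ_p^d`
with distortion at most `D`; `dimNumber p n D` is the least such `d`.
-/

namespace Vale.Agent.P249

open MeasureTheory

universe u

/-- Every `n`-point subset `X` of every space `L_p(μ)` (over a measure space in the universe `u`)
admits a map `f` into `ℓ_p^d` and a scale `s > 0` with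
`s ‖x - x'‖ ≤ ‖f x - f x'‖ ≤ D s ‖x - x'‖` for all `x, x' ∈ X`. -/
def EmbedsAll (p : ENNReal) [Fact (1 ≤ p)] (n : ℕ) (D : ℝ) (d : ℕ) : Prop :=
  ∀ (α : Type u) [MeasurableSpace α] (μ : Measure α) (X : Finset (Lp ℝ p μ)), X.card = n →
    ∃ (f : Lp ℝ p μ → PiLp p (fun _ : Fin d => ℝ)) (s : ℝ), 0 < s ∧ ∀ x ∈ X, ∀ x' ∈ X,
      s * ‖x - x'‖ ≤ ‖f x - f x'‖ ∧ ‖f x - f x'‖ ≤ D * s * ‖x - x'‖

/-- `d_p(n, D)`: the least `d` such that every `n`-point subset of every `L_p` space admits a map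
into `ℓ_p^d` with distortion at most `D`. -/
noncomputable def dimNumber (p : ENNReal) [Fact (1 ≤ p)] (n : ℕ) (D : ℝ) : ℕ :=
  sInf {d : ℕ | EmbedsAll.{u} p n D d}

/-- padding by zeros -/
noncomputable def pad (p : ENNReal) (d d0 : ℕ) (y : PiLp p (fun _ : Fin d => ℝ)) :
    PiLp p (fun _ : Fin d0 => ℝ) :=
  WithLp.toLp p (fun k : Fin d0 => if hk : k.val < d then y ⟨k.val, hk⟩ else 0)

lemma norm_pad_sub (p : ENNReal) [Fact (1 ≤ p)] (hp : p ≠ ⊤) {d d0 : ℕ} (h : d ≤ d0)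
    (y y' : PiLp p (fun _ : Fin d => ℝ)) : ‖pad p d d0 y - pad p d d0 y'‖ = ‖y - y'‖ := by
  have hpos : 0 < p.toReal := by
    have h1 : (1 : ENNReal) ≤ p := Fact.out
    exact ENNReal.toReal_pos (by intro h0; rw [h0] at h1; simp at h1) hp
  rw [PiLp.norm_eq_sum hpos, PiLp.norm_eq_sum hpos]
  congr 1
  set F : ℕ → ℝ := fun k => if hk : k < d then ‖(y - y') ⟨k, hk⟩‖ ^ p.toReal else 0 with hF
  have h1 : ∀ k : Fin d0, ‖(pad p d d0 y - pad p d d0 y') k‖ ^ p.toReal = F k.val := by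
    intro k
    simp only [hF, pad, WithLp.ofLp_sub, Pi.sub_apply]
    by_cases hk : k.val < d
    · simp only [dif_pos hk]
    · simp only [dif_neg hk, sub_zero, norm_zero]
      exact Real.zero_rpow hpos.ne'
  have h2 : ∀ k : Fin d, ‖(y - y') k‖ ^ p.toReal = F k.val := by
    intro k
    simp only [hF, dif_pos k.isLt]
  rw [Finset.sum_congr rfl (fun k _ => h1 k), Finset.sum_congr rfl (fun k _ => h2 k),
    Fin.sum_univ_eq_sum_range F d0, Fin.sum_univ_eq_sum_range F d]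
  symm
  apply Finset.sum_subset (Finset.range_subset_range.mpr h)
  intro k _ hk
  simp only [Finset.mem_range] at hk
  simp only [hF, dif_neg hk]

theorem embedsAll_of_bound (p : ENNReal) [Fact (1 ≤ p)] (hp : p ≠ ⊤) (D : ℝ) (hD : 1 < D)
    (n : ℕ) (hn : 2 ≤ n) :
    EmbedsAll.{u} p n D
      ⌊10753 * 2304 ^ p.toReal * ((D + 1) / (D - 1)) ^ 2 * n * Real.log n⌋₊ := by
  intro α _ μ X hX
  classical
  set d0 := ⌊10753 * 2304 ^ p.toReal * ((D + 1) / (D - 1)) ^ 2 * n * Real.log n⌋₊ with hd0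
  let e : X ≃ Fin n := X.equivFinOfCardEq hX
  obtain ⟨d, hd, g, s, hs, hg⟩ := Lp_embed3 hp D hD n hn (fun i => ((e.symm i : X) : Lp ℝ p μ))
    (fun i j hij => e.symm.injective (Subtype.ext hij))
  have hdd : d ≤ d0 := Nat.le_floor hd
  refine ⟨fun y => if hy : y ∈ X then pad p d d0 (g (e ⟨y, hy⟩)) else 0, s, hs, ?_⟩
  intro x hx x' hx'
  simp only [dif_pos hx, dif_pos hx']
  rw [norm_pad_sub p hp hdd]
  have := hg (e ⟨x, hx⟩) (e ⟨x', hx'⟩)
  simpa using this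

theorem dimNumber_spec (p : ENNReal) [Fact (1 ≤ p)] (hp : p ≠ ⊤) (D : ℝ) (hD : 1 < D)
    (n : ℕ) (hn : 2 ≤ n) :
    EmbedsAll.{u} p n D (dimNumber.{u} p n D) ∧
      (dimNumber.{u} p n D : ℝ) ≤
        10753 * 2304 ^ p.toReal * ((D + 1) / (D - 1)) ^ 2 * n * Real.log n := by
  have hmem := embedsAll_of_bound.{u} p hp D hD n hn
  constructor
  · exact Nat.sInf_mem (s := {d : ℕ | EmbedsAll.{u} p n D d}) ⟨_, hmem⟩
  · have h1 : dimNumber.{u} p n D ≤
        ⌊10753 * 2304 ^ p.toReal * ((D + 1) / (D - 1)) ^ 2 * n * Real.log n⌋₊ :=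
      Nat.sInf_le (s := {d : ℕ | EmbedsAll.{u} p n D d}) hmem
    have h0 : 0 ≤ 10753 * 2304 ^ p.toReal * ((D + 1) / (D - 1)) ^ 2 * n * Real.log n := by
      have : 0 ≤ Real.log n := Real.log_natCast_nonneg n
      positivity
    calc (dimNumber.{u} p n D : ℝ)
        ≤ (⌊10753 * 2304 ^ p.toReal * ((D + 1) / (D - 1)) ^ 2 * n * Real.log n⌋₊ : ℝ) := by
          exact_mod_cast h1
      _ ≤ _ := Nat.floor_le h0

end Vale.Agent.P249
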