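import Mathlib
import Vale.Agent.P249.Core2
import Vale.Agent.P249.Numeric
import Vale.Agent.P249.LpFacts

/-!
# P249: the sharper embedding theorem, `n (log n)^2`
-/

namespace Vale.Agent.P249

open MeasureTheory Finset

theorem numeric2 (n : ℕ) (hn : 2 ≤ n) (p : ℝ) (hp : 0 < p) (δ : ℝ) (hδ : 0 < δ) (hδ1 : δ ≤ 1) :
    ∃ k : ℕ, 4 * (135 ^ p * ((n : ℝ) * (1 + Real.log n))) * Real.log (2 * (n : ℝ) ^ 2) / δ ^ 2
        ≤ (k : ℝ) ∧
      (k : ℝ) ≤ 32 * 135 ^ p * (1 / δ) ^ 2 * n * (Real.log n) ^ 2 := by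
  have h3 := log_two_le_log n hn
  have h4 : (0.6931 : ℝ) < Real.log 2 := by
    have := Real.log_two_gt_d9
    linarith
  have hn' : (2 : ℝ) ≤ (n : ℝ) := by exact_mod_cast hn
  set L := Real.log n with hL
  have hLpos : 0 < L := by linarith
  have hlog2 : Real.log (2 * (n : ℝ) ^ 2) ≤ 3 * L := by
    rw [Real.log_mul (by norm_num) (by positivity), Real.log_pow]
    push_cast
    linarith
  have hlog2' : 0 ≤ Real.log (2 * (n : ℝ) ^ 2) := by
    apply Real.log_nonneg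
    nlinarith
  have h1L : 1 + L ≤ 2.5 * L := by linarith
  set A : ℝ := 135 ^ p with hA
  have hA1 : 1 ≤ A := Real.one_le_rpow (by norm_num) hp.le
  set X : ℝ := 4 * (A * ((n : ℝ) * (1 + L))) * Real.log (2 * (n : ℝ) ^ 2) / δ ^ 2 with hX
  have hXle : X ≤ 30 * A * (1 / δ) ^ 2 * n * L ^ 2 := by
    rw [hX]
    have e1 : 4 * (A * ((n : ℝ) * (1 + L))) * Real.log (2 * (n : ℝ) ^ 2)
        ≤ 4 * (A * ((n : ℝ) * (2.5 * L))) * (3 * L) := by
      apply mul_le_mul _ hlog2 hlog2' (by positivity)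
      apply mul_le_mul_of_nonneg_left _ (by norm_num)
      apply mul_le_mul_of_nonneg_left _ (by positivity)
      apply mul_le_mul_of_nonneg_left h1L (by positivity)
    calc 4 * (A * ((n : ℝ) * (1 + L))) * Real.log (2 * (n : ℝ) ^ 2) / δ ^ 2
        ≤ 4 * (A * ((n : ℝ) * (2.5 * L))) * (3 * L) / δ ^ 2 := by
          apply div_le_div_of_nonneg_right e1 (by positivity)
      _ = 30 * A * (1 / δ) ^ 2 * n * L ^ 2 := by
          field_simp
          ring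
  have hone : 1 ≤ 2 * A * (1 / δ) ^ 2 * n * L ^ 2 := by
    have g2 : 1 ≤ (1 / δ) ^ 2 := by
      have : 1 ≤ 1 / δ := by
        rw [le_div_iff₀ hδ]
        linarith
      nlinarith
    have g3 : (0.48 : ℝ) ≤ L ^ 2 := by nlinarith
    have g4 : 1 ≤ A * (1 / δ) ^ 2 := by nlinarith
    have g5 : (0.96 : ℝ) ≤ (n : ℝ) * L ^ 2 := by nlinarith
    calc (1 : ℝ) ≤ 2 * (1 * 0.96) := by norm_num
      _ ≤ 2 * ((A * (1 / δ) ^ 2) * ((n : ℝ) * L ^ 2)) := by
          apply mul_le_mul_of_nonneg_left _ (by norm_num)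
          apply mul_le_mul g4 g5 (by norm_num) (by positivity)
      _ = 2 * A * (1 / δ) ^ 2 * n * L ^ 2 := by ring
  have hX0 : 0 ≤ X := by
    rw [hX]
    positivity
  refine ⟨⌈X⌉₊, Nat.le_ceil X, ?_⟩
  have := Nat.ceil_lt_add_one hX0
  have e : 32 * A * (1 / δ) ^ 2 * n * L ^ 2
      = 30 * A * (1 / δ) ^ 2 * n * L ^ 2 + 2 * A * (1 / δ) ^ 2 * n * L ^ 2 := by
    ring
  rw [e]
  linarith

theorem abstract_embed2 {Ω : Type*} [MeasurableSpace Ω] (μ : Measure Ω) (n : ℕ) (hn : 2 ≤ n)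
    (a : Fin n → Ω → ℝ) (D : Fin n → Fin n → ℝ) (hD0 : ∀ u, D u u = 0)
    (hsymm : ∀ u v, D u v = D v u) (htri : ∀ u v w, D u w ≤ D u v + D v w)
    (hpos : ∀ u v, u ≠ v → 0 < D u v) (p : ℝ) (hp : 1 ≤ p)
    (hint : ∀ u v, Integrable (fun ω => |a u ω - a v ω| ^ p) μ)
    (hD : ∀ u v, ∫ ω, |a u ω - a v ω| ^ p ∂μ = (D u v) ^ p)
    (Δ : ℝ) (hΔ : 1 < Δ) :
    ∃ d : ℕ, (d : ℝ) ≤ 32 * 135 ^ p * ((Δ + 1) / (Δ - 1)) ^ 2 * n * (Real.log n) ^ 2 ∧
      ∃ (ω : Fin d → Ω) (c : Fin d → ℝ) (s : ℝ), (∀ t, 0 < c t) ∧ 0 < s ∧ ∀ i j,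
        s * D i j ≤ (∑ t, |c t * a i (ω t) - c t * a j (ω t)| ^ p) ^ (1 / p) ∧
        (∑ t, |c t * a i (ω t) - c t * a j (ω t)| ^ p) ^ (1 / p) ≤ Δ * s * D i j := by
  have hp0 : 0 < p := by linarith
  set δ : ℝ := (Δ - 1) / (Δ + 1) with hδdef
  have hΔ1 : 0 < Δ - 1 := by linarith
  have hΔ2 : 0 < Δ + 1 := by linarith
  have hδ : 0 < δ := by positivity
  have hδlt : δ < 1 := by
    rw [hδdef, div_lt_one hΔ2]
    linarith
  have hinv : 1 / δ = (Δ + 1) / (Δ - 1) := by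
    rw [hδdef]
    field_simp
  obtain ⟨k, hk1, hk2⟩ := numeric2 n hn p hp0 δ hδ hδlt.le
  rw [hinv] at hk2
  have hcard : Fintype.card (Fin n) = n := Fintype.card_fin n
  obtain ⟨ω, c, hc, hb⟩ := core_gen μ a D hD0 hsymm htri hpos p hp0 hint hD
    (by rw [hcard]; exact hn) (135 ^ p) (Real.rpow_pos_of_pos (by norm_num) p)
    (fun a' i j hij => key_ineq2 D hD0 hsymm htri hpos p hp a' i j hij)
    δ hδ hδlt.le k (by rw [hcard]; exact hk1)
  refine ⟨k, hk2, ω, fun t => (c t) ^ (1 / p), (1 - δ) ^ (1 / p), ?_, ?_, ?_⟩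
  · intro t
    exact Real.rpow_pos_of_pos (hc t) _
  · apply Real.rpow_pos_of_pos
    linarith
  · intro i j
    have hsum : ∑ t, |(c t) ^ (1 / p) * a i (ω t) - (c t) ^ (1 / p) * a j (ω t)| ^ p
        = ∑ t, c t * |a i (ω t) - a j (ω t)| ^ p := by
      apply Finset.sum_congr rfl
      intro t _
      rw [← mul_sub, abs_mul, Real.mul_rpow (abs_nonneg _) (abs_nonneg _),
        abs_of_nonneg (Real.rpow_nonneg (hc t).le _), ← Real.rpow_mul (hc t).le,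
        one_div_mul_cancel hp0.ne', Real.rpow_one]
    rw [hsum]
    obtain ⟨hb1, hb2⟩ := hb i j
    have hDnn : 0 ≤ D i j := D_nonneg D hD0 hpos i j
    have hroot : ((D i j) ^ p) ^ (1 / p) = D i j := by
      rw [← Real.rpow_mul hDnn, mul_one_div_cancel hp0.ne', Real.rpow_one]
    have h1δ : 0 < 1 - δ := by linarith
    constructor
    · calc (1 - δ) ^ (1 / p) * D i j = ((1 - δ) * (D i j) ^ p) ^ (1 / p) := by
            rw [Real.mul_rpow h1δ.le (Real.rpow_nonneg hDnn _), hroot]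
        _ ≤ _ := by
            apply Real.rpow_le_rpow _ hb1 (by positivity)
            exact mul_nonneg h1δ.le (Real.rpow_nonneg hDnn _)
    · have hsum0 : 0 ≤ ∑ t, c t * |a i (ω t) - a j (ω t)| ^ p :=
        Finset.sum_nonneg (fun t _ => mul_nonneg (hc t).le (Real.rpow_nonneg (abs_nonneg _) _))
      have h1 : 1 + δ = Δ * (1 - δ) := by
        rw [hδdef]
        field_simp
        ring
      have hΔp : Δ ^ (1 / p) ≤ Δ := by
        calc Δ ^ (1 / p) ≤ Δ ^ (1 : ℝ) := by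
              apply Real.rpow_le_rpow_of_exponent_le hΔ.le
              rw [div_le_one hp0]
              exact hp
          _ = Δ := Real.rpow_one Δ
      calc (∑ t, c t * |a i (ω t) - a j (ω t)| ^ p) ^ (1 / p)
          ≤ ((1 + δ) * (D i j) ^ p) ^ (1 / p) := Real.rpow_le_rpow hsum0 hb2 (by positivity)
        _ = Δ ^ (1 / p) * (1 - δ) ^ (1 / p) * D i j := by
            rw [Real.mul_rpow (by linarith) (Real.rpow_nonneg hDnn _), hroot, h1,
              Real.mul_rpow (by linarith) h1δ.le]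
        _ ≤ Δ * (1 - δ) ^ (1 / p) * D i j := by
            apply mul_le_mul_of_nonneg_right _ hDnn
            apply mul_le_mul_of_nonneg_right hΔp
            exact Real.rpow_nonneg h1δ.le _

variable {α : Type*} [MeasurableSpace α] {μ : Measure α} {p : ENNReal}

theorem Lp_embed2 [Fact (1 ≤ p)] (hp : p ≠ ⊤)
    (Δ : ℝ) (hΔ : 1 < Δ) (n : ℕ) (hn : 2 ≤ n) (x : Fin n → Lp ℝ p μ)
    (hx : Function.Injective x) :
    ∃ d : ℕ, (d : ℝ) ≤ 32 * 135 ^ p.toReal * ((Δ + 1) / (Δ - 1)) ^ 2 * n * (Real.log n) ^ 2 ∧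
      ∃ (f : Fin n → PiLp p (fun _ : Fin d => ℝ)) (s : ℝ), 0 < s ∧ ∀ i j,
        s * ‖x i - x j‖ ≤ ‖f i - f j‖ ∧ ‖f i - f j‖ ≤ Δ * s * ‖x i - x j‖ := by
  have h1 := toReal_pos_of_fact (p := p) hp
  have hpos : 0 < p.toReal := by linarith
  obtain ⟨d, hd, ω, c, s, _, hs, hf⟩ := abstract_embed2 μ n hn (fun u => (x u : α → ℝ))
    (fun u v => ‖x u - x v‖) (fun u => by simp) (fun u v => norm_sub_rev _ _)
    (fun u v w => norm_sub_le_norm_sub_add_norm_sub _ _ _)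
    (fun u v huv => norm_pos_iff.2 (sub_ne_zero.2 (hx.ne huv))) p.toReal h1
    (fun u v => integrable_sub hp (x u) (x v)) (fun u v => integral_sub' hp (x u) (x v)) Δ hΔ
  refine ⟨d, hd, fun i => WithLp.toLp p (fun t => c t * (x i : α → ℝ) (ω t)), s, hs, ?_⟩
  intro i j
  have hnorm : ‖WithLp.toLp p (fun t => c t * (x i : α → ℝ) (ω t))
        - WithLp.toLp p (fun t => c t * (x j : α → ℝ) (ω t))‖
      = (∑ t, |c t * (x i : α → ℝ) (ω t) - c t * (x j : α → ℝ) (ω t)| ^ p.toReal)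
        ^ (1 / p.toReal) := by
    rw [PiLp.norm_eq_sum hpos]
    simp [Real.norm_eq_abs]
  rw [hnorm]
  exact hf i j

end Vale.Agent.P249
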