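import Mathlib
import Vale.Agent.P249.Additive
import Vale.Agent.P249.Numeric

/-!
# P249: epsilon-isometric dimension reduction for families with small maximal function
-/

namespace Vale.Agent.P249

open MeasureTheory Finset

variable {α : Type*} [MeasurableSpace α] {μ : Measure α} {p : ENNReal}

theorem abs_le_iSup {n : ℕ} (x : Fin n → α → ℝ) (i : Fin n) (ω : α) :
    |x i ω| ≤ ⨆ j, |x j ω| :=
  le_ciSup (f := fun j => |x j ω|) (Set.finite_range _).bddAbove i

theorem iSup_abs_nonneg {n : ℕ} (x : Fin n → α → ℝ) (ω : α) : 0 ≤ ⨆ j, |x j ω| :=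
  Real.iSup_nonneg (fun _ => abs_nonneg _)

theorem integrable_iSup_rpow [Fact (1 ≤ p)] (hp : p ≠ ⊤) (n : ℕ) (hn : 2 ≤ n)
    (x : Fin n → Lp ℝ p μ) :
    Integrable (fun ω => (⨆ i, |x i ω|) ^ p.toReal) μ := by
  have h1 := toReal_pos_of_fact (p := p) hp
  haveI : Nonempty (Fin n) := ⟨⟨0, by omega⟩⟩
  have hsum : Integrable (fun ω => ∑ i, |x i ω| ^ p.toReal) μ :=
    integrable_finsetSum _ (fun i _ => integrable_abs_rpow hp (x i))
  refine hsum.mono' ?_ ?_
  · have hm : AEMeasurable (fun ω => ⨆ i, |x i ω|) μ := by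
      apply AEMeasurable.iSup
      intro i
      exact ((Lp.aestronglyMeasurable (x i)).aemeasurable).abs
    exact (hm.pow_const _).aestronglyMeasurable
  · filter_upwards with ω
    rw [Real.norm_eq_abs, abs_of_nonneg (Real.rpow_nonneg (iSup_abs_nonneg (fun i => (x i : α → ℝ)) ω) _)]
    obtain ⟨i, hi⟩ := exists_eq_ciSup_of_finite (f := fun i => |x i ω|)
    rw [← hi]
    exact Finset.single_le_sum (f := fun i => |x i ω| ^ p.toReal)
      (fun j _ => Real.rpow_nonneg (abs_nonneg _) _) (Finset.mem_univ i)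

theorem numeric3 (n : ℕ) (hn : 2 ≤ n) (M ε : ℝ) (hε : 0 < ε) (hεM : ε ≤ M) :
    ∃ k : ℕ, 8 * M ^ 2 * Real.log (2 * ((n * n : ℕ) : ℝ)) / ε ^ 2 ≤ (k : ℝ) ∧
      (k : ℝ) ≤ 26 * M ^ 2 * Real.log n / ε ^ 2 := by
  have h3 := log_two_le_log n hn
  have h4 : (0.6931 : ℝ) < Real.log 2 := by
    have := Real.log_two_gt_d9
    linarith
  have hn' : (2 : ℝ) ≤ (n : ℝ) := by exact_mod_cast hn
  have hMpos : 0 < M := lt_of_lt_of_le hε hεM
  set L := Real.log n with hL
  have hLpos : 0 < L := by linarith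
  have hlog2 : Real.log (2 * ((n * n : ℕ) : ℝ)) ≤ 3 * L := by
    push_cast
    rw [Real.log_mul (by norm_num) (by positivity), Real.log_mul (by positivity) (by positivity)]
    linarith
  set R : ℝ := M ^ 2 / ε ^ 2 with hR
  have hR1 : 1 ≤ R := by
    rw [hR, le_div_iff₀ (by positivity)]
    nlinarith
  set X : ℝ := 8 * M ^ 2 * Real.log (2 * ((n * n : ℕ) : ℝ)) / ε ^ 2 with hX
  have hXle : X ≤ 24 * R * L := by
    have : X = 8 * R * Real.log (2 * ((n * n : ℕ) : ℝ)) := by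
      rw [hX, hR]
      ring
    rw [this]
    have : 8 * R * Real.log (2 * ((n * n : ℕ) : ℝ)) ≤ 8 * R * (3 * L) :=
      mul_le_mul_of_nonneg_left hlog2 (by positivity)
    linarith
  have hX0 : 0 ≤ X := by
    rw [hX]
    have : 0 ≤ Real.log (2 * ((n * n : ℕ) : ℝ)) := by
      apply Real.log_nonneg
      push_cast
      nlinarith
    positivity
  refine ⟨⌈X⌉₊, Nat.le_ceil X, ?_⟩
  have hc := Nat.ceil_lt_add_one hX0
  have hone : 1 ≤ 2 * R * L := by nlinarith
  have : 26 * M ^ 2 * L / ε ^ 2 = 26 * R * L := by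
    rw [hR]
    ring
  rw [this]
  nlinarith

theorem incompressible [Fact (1 ≤ p)] (hp : p ≠ ⊤) (n : ℕ) (hn : 2 ≤ n)
    (x : Fin n → Lp ℝ p μ) (K : ℝ) (hK0 : 0 ≤ K)
    (hK : ∫ ω, (⨆ i, |x i ω|) ^ p.toReal ∂μ ≤ K ^ p.toReal) (ε : ℝ) (hε : 0 < ε) :
    ∃ d : ℕ, (d : ℝ) ≤ 26 * (2 * K) ^ (2 * p.toReal) * Real.log n / ε ^ 2 ∧
      ∃ y : Fin n → PiLp p (fun _ : Fin d => ℝ), ∀ i j,
        ‖x i - x j‖ ^ p.toReal - ε ≤ ‖y i - y j‖ ^ p.toReal ∧
        ‖y i - y j‖ ^ p.toReal ≤ ‖x i - x j‖ ^ p.toReal + ε := by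
  have h1 := toReal_pos_of_fact (p := p) hp
  have hpos : 0 < p.toReal := by linarith
  set q := p.toReal with hq
  set M : ℝ := (2 * K) ^ q with hM
  have hM0 : 0 ≤ M := Real.rpow_nonneg (by positivity) _
  have hM2 : (2 * K) ^ (2 * q) = M ^ 2 := by
    rw [hM, mul_comm 2 q, Real.rpow_mul (by positivity), Real.rpow_two]
  rw [hM2]
  set g : α → ℝ := fun ω => 2 ^ q * (⨆ i, |x i ω|) ^ q with hg
  have hgint : Integrable g μ := (integrable_iSup_rpow hp n hn x).const_mul _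
  have hg0 : ∀ ω, 0 ≤ g ω := fun ω =>
    mul_nonneg (Real.rpow_nonneg (by norm_num) _)
      (Real.rpow_nonneg (iSup_abs_nonneg (fun i => (x i : α → ℝ)) ω) _)
  have hgM : ∫ ω, g ω ∂μ ≤ M := by
    simp only [hg]
    rw [integral_const_mul, hM, Real.mul_rpow (by norm_num) hK0]
    exact mul_le_mul_of_nonneg_left hK (Real.rpow_nonneg (by norm_num) _)
  set F : Fin n × Fin n → α → ℝ := fun e ω => |x e.1 ω - x e.2 ω| ^ q with hF
  have hF0 : ∀ e ω, 0 ≤ F e ω := fun e ω => Real.rpow_nonneg (abs_nonneg _) _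
  have hFint : ∀ e, Integrable (F e) μ := fun e => integrable_sub hp (x e.1) (x e.2)
  have hFval : ∀ e, ∫ ω, F e ω ∂μ = ‖x e.1 - x e.2‖ ^ q := fun e => integral_sub' hp (x e.1) (x e.2)
  have hFg : ∀ e ω, F e ω ≤ g ω := by
    intro e ω
    simp only [hF, hg]
    rw [← Real.mul_rpow (by norm_num) (iSup_abs_nonneg (fun i => (x i : α → ℝ)) ω)]
    apply Real.rpow_le_rpow (abs_nonneg _) _ hpos.le
    have a1 := abs_le_iSup (fun i => (x i : α → ℝ)) e.1 ω
    have a2 := abs_le_iSup (fun i => (x i : α → ℝ)) e.2 ω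
    have a3 := abs_sub (x e.1 ω) (x e.2 ω)
    linarith
  have hlogn : 0 ≤ Real.log n := Real.log_nonneg (by exact_mod_cast (by omega : 1 ≤ n))
  by_cases hcase : ∫ ω, g ω ∂μ ≤ ε
  · -- everything is within `ε`: dimension zero
    refine ⟨0, ?_, fun _ => 0, ?_⟩
    · simp only [Nat.cast_zero]
      positivity
    · intro i j
      have hle : ‖x i - x j‖ ^ q ≤ ε := by
        rw [← hFval (i, j)]
        exact le_trans (integral_mono (hFint (i, j)) hgint (hFg (i, j))) hcase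
      have hnn : 0 ≤ ‖x i - x j‖ ^ q := Real.rpow_nonneg (norm_nonneg _) _
      simp only [sub_self, norm_zero, Real.zero_rpow hpos.ne']
      constructor <;> linarith
  · push Not at hcase
    have hgpos : 0 < ∫ ω, g ω ∂μ := lt_trans hε hcase
    have hεM : ε ≤ M := le_trans hcase.le hgM
    obtain ⟨k, hk1, hk2⟩ := numeric3 n hn M ε hε hεM
    haveI : Nonempty (Fin n × Fin n) := ⟨(⟨0, by omega⟩, ⟨0, by omega⟩)⟩
    have hcard : Fintype.card (Fin n × Fin n) = n * n := by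
      simp
    obtain ⟨ω, c, hc, hb⟩ := additive_core μ F hF0 hFint g hg0 hgint hFg hgpos M hgM ε hε hεM k
      (by rw [hcard]; exact hk1)
    refine ⟨k, hk2, fun i => WithLp.toLp p (fun t => (c t) ^ (1 / q) * (x i : α → ℝ) (ω t)), ?_⟩
    intro i j
    have hnorm : ‖WithLp.toLp p (fun t => (c t) ^ (1 / q) * (x i : α → ℝ) (ω t))
          - WithLp.toLp p (fun t => (c t) ^ (1 / q) * (x j : α → ℝ) (ω t))‖ ^ q
        = ∑ t, c t * F (i, j) (ω t) := by
      rw [PiLp.norm_eq_sum (by rw [← hq]; exact hpos)]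
      rw [← hq, ← Real.rpow_mul (Finset.sum_nonneg (fun t _ => Real.rpow_nonneg (norm_nonneg _) _)),
        one_div_mul_cancel hpos.ne', Real.rpow_one]
      apply Finset.sum_congr rfl
      intro t _
      simp only [hF, WithLp.ofLp_sub, Pi.sub_apply, Real.norm_eq_abs]
      rw [← mul_sub, abs_mul, Real.mul_rpow (abs_nonneg _) (abs_nonneg _),
        abs_of_nonneg (Real.rpow_nonneg (hc t).le _), ← Real.rpow_mul (hc t).le,
        one_div_mul_cancel hpos.ne', Real.rpow_one]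
    rw [hnorm]
    have := hb (i, j)
    rw [hFval (i, j), abs_le] at this
    constructor <;> linarith [this.1, this.2]

end Vale.Agent.P249
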